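import Mathlib.Analysis.InnerProductSpace.Basic
import Mathlib.Analysis.Complex.Basic
import Mathlib.Algebra.Order.Chebyshev
import Mathlib.Algebra.Order.BigOperators.Ring.Finset
import Mathlib.Data.Complex.BigOperators

/-!
P006, block MAX (helper611): the binary-digit chain.  It removes the coupling `n(a) < Y(b)` between
two summation variables by an exact identity, with one dyadic block per level.
-/

namespace Vale.Agent.P006.H611

open Finset

/-- The binary-digit chain: `n < Y` iff for exactly one level `i` the number `Y / 2^i` is odd and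
`n / 2^i + 1 = Y / 2^i`. -/
theorem chain_indicator {R : Type*} [AddCommMonoidWithOne R] (L : ℕ) : ∀ n Y : ℕ, Y < 2 ^ L →
    (if n < Y then (1 : R) else 0) =
      ∑ i ∈ range L, if (Y / 2 ^ i) % 2 = 1 ∧ n / 2 ^ i + 1 = Y / 2 ^ i then 1 else 0 := by
  induction L with
  | zero =>
    intro n Y hY
    have : Y = 0 := by simpa using hY
    subst this
    simp
  | succ L ih =>
    intro n Y hY
    have h2 : Y / 2 < 2 ^ L := by
      rw [pow_succ] at hY; omega
    rw [sum_range_succ']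
    have e1 : ∀ i, (if (Y / 2 ^ (i + 1)) % 2 = 1 ∧ n / 2 ^ (i + 1) + 1 = Y / 2 ^ (i + 1) then
        (1 : R) else 0) = if ((Y / 2) / 2 ^ i) % 2 = 1 ∧ (n / 2) / 2 ^ i + 1 = (Y / 2) / 2 ^ i then
        1 else 0 := by
      intro i
      rw [Nat.div_div_eq_div_mul, Nat.div_div_eq_div_mul, pow_succ, mul_comm (2 ^ i) 2]
    simp only [e1]
    rw [← ih (n / 2) (Y / 2) h2]
    simp only [pow_zero, Nat.div_one]
    rcases Nat.lt_or_ge (n / 2) (Y / 2) with h | h
    · have h3 : n < Y := by omega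
      have h4 : ¬ (Y % 2 = 1 ∧ n + 1 = Y) := by omega
      rw [if_pos h, if_pos h3, if_neg h4, add_zero]
    · have h5 : ¬ (n / 2 < Y / 2) := by omega
      by_cases h3 : n < Y
      · have h4 : Y % 2 = 1 ∧ n + 1 = Y := by omega
        rw [if_neg h5, if_pos h3, if_pos h4, zero_add]
      · have h4 : ¬ (Y % 2 = 1 ∧ n + 1 = Y) := by omega
        rw [if_neg h5, if_neg h3, if_neg h4, zero_add]

/-- summed form of the chain -/
theorem chain_sum {ι E : Type*} [AddCommMonoid E] (S : Finset ι) (n : ι → ℕ) (f : ι → E)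
    {L Y : ℕ} (hY : Y < 2 ^ L) :
    ∑ a ∈ S with n a < Y, f a =
      ∑ i ∈ range L, if (Y / 2 ^ i) % 2 = 1 then ∑ a ∈ S with n a / 2 ^ i + 1 = Y / 2 ^ i, f a
        else 0 := by
  have e1 : ∀ i ∈ range L, (if (Y / 2 ^ i) % 2 = 1 then
      ∑ a ∈ S with n a / 2 ^ i + 1 = Y / 2 ^ i, f a else 0) =
      ∑ a ∈ S, if (Y / 2 ^ i) % 2 = 1 ∧ n a / 2 ^ i + 1 = Y / 2 ^ i then f a else 0 := by
    intro i _
    split_ifs with h
    · rw [sum_filter]
      exact sum_congr rfl fun a _ => by simp [h]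
    · simp [h]
  rw [sum_congr rfl e1, sum_comm, sum_filter]
  refine sum_congr rfl fun a _ => ?_
  have h := chain_indicator (R := ℕ) L (n a) Y hY
  have e2 : ∀ p : Prop, ∀ [Decidable p], (if p then f a else 0) = (if p then 1 else 0 : ℕ) • f a := by
    intro p _
    split_ifs <;> simp
  rw [e2, h, sum_smul]
  refine sum_congr rfl fun i _ => ?_
  rw [e2 ((Y / 2 ^ i) % 2 = 1 ∧ n a / 2 ^ i + 1 = Y / 2 ^ i)]

/-- The chain at level `i`, exact identity with both sides localised: the pairs with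
`n a / 2^i = s` are paired exactly with the `b` with `Y b / 2^i = s + 1`, `s` even. -/
theorem chain_blocks {ι κ : Type*} (S : Finset ι) (T : Finset κ) (n : ι → ℕ) (Y : κ → ℕ)
    (F : ι → κ → ℂ) {L : ℕ} (hY : ∀ b ∈ T, Y b < 2 ^ L) :
    ∑ b ∈ T, ∑ a ∈ S with n a < Y b, F a b =
      ∑ i ∈ range L, ∑ s ∈ (range (2 ^ L)).filter (fun s => s % 2 = 0),
        ∑ b ∈ T with Y b / 2 ^ i = s + 1, ∑ a ∈ S with n a / 2 ^ i = s, F a b := by
  have e1 : ∀ b ∈ T, ∑ a ∈ S with n a < Y b, F a b = ∑ i ∈ range L,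
      if (Y b / 2 ^ i) % 2 = 1 then ∑ a ∈ S with n a / 2 ^ i + 1 = Y b / 2 ^ i, F a b else 0 :=
    fun b hb => chain_sum S n (fun a => F a b) (hY b hb)
  rw [sum_congr rfl e1, sum_comm]
  refine sum_congr rfl fun i _ => ?_
  have e2 : ∀ s, ∑ b ∈ T with Y b / 2 ^ i = s + 1, ∑ a ∈ S with n a / 2 ^ i = s, F a b =
      ∑ b ∈ T, if Y b / 2 ^ i = s + 1 then ∑ a ∈ S with n a / 2 ^ i = s, F a b else 0 :=
    fun s => by rw [sum_filter]
  simp only [e2]
  rw [sum_comm]
  refine sum_congr rfl fun b hb => ?_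
  by_cases h : (Y b / 2 ^ i) % 2 = 1
  · rw [if_pos h]
    have h1 : Y b / 2 ^ i - 1 ∈ (range (2 ^ L)).filter (fun s => s % 2 = 0) := by
      have h2 := hY b hb
      have h3 : Y b / 2 ^ i ≤ Y b := Nat.div_le_self _ _
      rw [mem_filter, mem_range]
      omega
    rw [sum_eq_single_of_mem _ h1]
    · have h2 : Y b / 2 ^ i = Y b / 2 ^ i - 1 + 1 := by
        generalize Y b / 2 ^ i = q at h
        omega
      rw [if_pos h2]
      refine sum_congr ?_ fun _ _ => rfl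
      ext a
      simp only [mem_filter]
      refine and_congr_right fun _ => ?_
      generalize Y b / 2 ^ i = q at h
      generalize n a / 2 ^ i = r
      omega
    · intro s _ hs
      have hne : ¬ (Y b / 2 ^ i = s + 1) := by omega
      rw [if_neg hne]
  · rw [if_neg h]
    symm
    refine sum_eq_zero fun s hs => ?_
    have hs2 := (mem_filter.1 hs).2
    have hne : ¬ (Y b / 2 ^ i = s + 1) := by
      intro h3
      rw [h3] at h
      omega
    rw [if_neg hne]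

/-- Cauchy-Schwarz with the chain: bilinear form with the coupling `n a < Y b`. -/
theorem chain_cs {ι κ : Type*} (S : Finset ι) (T T' : Finset κ) (hT : T ⊆ T') (n : ι → ℕ)
    (Y : κ → ℕ) (c : κ → ℂ) (v : κ → ℝ) (hv : ∀ b ∈ T', 0 ≤ v b) (hv1 : ∀ b ∈ T, 1 ≤ v b)
    (F : ι → κ → ℂ) {L : ℕ} (hY : ∀ b ∈ T, Y b < 2 ^ L) :
    ‖∑ b ∈ T, c b * ∑ a ∈ S with n a < Y b, F a b‖ ≤
      ∑ i ∈ range L, √(∑ b ∈ T, ‖c b‖ ^ 2) *
        √(∑ s ∈ range (2 ^ L), ∑ b ∈ T', v b * ‖∑ a ∈ S with n a / 2 ^ i = s, F a b‖ ^ 2) := by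
  have e0 : ∀ b ∈ T, c b * ∑ a ∈ S with n a < Y b, F a b = ∑ i ∈ range L,
      c b * (if (Y b / 2 ^ i) % 2 = 1 then ∑ a ∈ S with n a / 2 ^ i + 1 = Y b / 2 ^ i, F a b else 0) := by
    intro b hb
    rw [chain_sum S n (fun a => F a b) (hY b hb), mul_sum]
  rw [sum_congr rfl e0, sum_comm]
  refine (norm_sum_le _ _).trans (sum_le_sum fun i _ => ?_)
  set G : κ → ℂ := fun b => if (Y b / 2 ^ i) % 2 = 1 then
    ∑ a ∈ S with n a / 2 ^ i + 1 = Y b / 2 ^ i, F a b else 0 with hG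
  have hle : ∀ b ∈ T, ‖G b‖ ^ 2 ≤
      ∑ s ∈ range (2 ^ L), v b * ‖∑ a ∈ S with n a / 2 ^ i = s, F a b‖ ^ 2 := by
    intro b hb
    have hnn : ∀ s ∈ range (2 ^ L), 0 ≤ v b * ‖∑ a ∈ S with n a / 2 ^ i = s, F a b‖ ^ 2 :=
      fun s _ => mul_nonneg (hv b (hT hb)) (by positivity)
    simp only [hG]
    split_ifs with h
    · have h1 : Y b / 2 ^ i - 1 ∈ range (2 ^ L) := by
        have h2 := hY b hb
        have h3 : Y b / 2 ^ i ≤ Y b := Nat.div_le_self _ _
        rw [mem_range]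
        omega
      refine le_trans ?_ (single_le_sum hnn h1)
      have e3 : (S.filter fun a => n a / 2 ^ i + 1 = Y b / 2 ^ i) =
          S.filter fun a => n a / 2 ^ i = Y b / 2 ^ i - 1 := by
        ext a
        simp only [mem_filter]
        refine and_congr_right fun _ => ?_
        generalize Y b / 2 ^ i = q at h
        generalize n a / 2 ^ i = r
        omega
      rw [e3]
      have := hv1 b hb
      have h4 : 0 ≤ ‖∑ a ∈ S with n a / 2 ^ i = Y b / 2 ^ i - 1, F a b‖ ^ 2 := by positivity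
      nlinarith
    · simpa using sum_nonneg hnn
  have h1 : ‖∑ b ∈ T, c b * G b‖ ≤ √(∑ b ∈ T, ‖c b‖ ^ 2) * √(∑ b ∈ T, ‖G b‖ ^ 2) := by
    refine (norm_sum_le _ _).trans ?_
    simp only [norm_mul]
    have h2 := Finset.sum_mul_sq_le_sq_mul_sq T (fun b => ‖c b‖) (fun b => ‖G b‖)
    rw [← Real.sqrt_mul (sum_nonneg fun _ _ => by positivity)]
    exact Real.le_sqrt_of_sq_le h2
  refine h1.trans (mul_le_mul_of_nonneg_left (Real.sqrt_le_sqrt ?_) (Real.sqrt_nonneg _))
  calc ∑ b ∈ T, ‖G b‖ ^ 2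
      ≤ ∑ b ∈ T, ∑ s ∈ range (2 ^ L), v b * ‖∑ a ∈ S with n a / 2 ^ i = s, F a b‖ ^ 2 :=
        sum_le_sum hle
    _ ≤ ∑ b ∈ T', ∑ s ∈ range (2 ^ L), v b * ‖∑ a ∈ S with n a / 2 ^ i = s, F a b‖ ^ 2 :=
        sum_le_sum_of_subset_of_nonneg hT fun b hb _ =>
          sum_nonneg fun s _ => mul_nonneg (hv b hb) (by positivity)
    _ = _ := sum_comm

end Vale.Agent.P006.H611
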