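import Vale.Agent.P006.H103.Defs
import Vale.Agent.P006.H611.Chain
import Mathlib.Analysis.SpecialFunctions.Log.Base

/-!
P006, block TII (helper611): reduction of the bilinear sums with the coupling `N(ab) ≤ x` to
sums over dyadic blocks without coupling.
-/

namespace Vale.Agent.P006.H611

open Finset

open Classical in
/-- squarefree primary elements in a dyadic norm block -/
noncomputable def DB (i : ℕ) : Finset O := (SPB (2 ^ (i + 1))).filter fun a => Nat.log 2 (N a) = i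

theorem mem_DB {i : ℕ} {a : O} : a ∈ DB i ↔ Primary a ∧ Squarefree a ∧ Nat.log 2 (N a) = i := by
  classical
  rw [DB, mem_filter, mem_SPB]
  constructor
  · rintro ⟨⟨⟨h1, _⟩, h2⟩, h3⟩
    exact ⟨h1, h2, h3⟩
  · rintro ⟨h1, h2, h3⟩
    refine ⟨⟨⟨h1, ?_⟩, h2⟩, h3⟩
    have h4 := Nat.lt_pow_succ_log_self (b := 2) (by norm_num) (N a)
    rw [h3] at h4
    have h5 : (N a : ℝ) < ((2 ^ (i + 1) : ℕ) : ℝ) := by exact_mod_cast h4
    push_cast at h5
    exact h5.le

theorem DB_bounds {i : ℕ} {a : O} (h : a ∈ DB i) : 2 ^ i ≤ N a ∧ N a < 2 ^ (i + 1) := by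
  rw [mem_DB] at h
  have h0 : N a ≠ 0 := by have := h.1.one_le_N; omega
  have h1 := Nat.pow_log_le_self 2 h0
  have h2 := Nat.lt_pow_succ_log_self (b := 2) (by norm_num) (N a)
  rw [h.2.2] at h1 h2
  exact ⟨h1, h2⟩

theorem card_DB_le (i : ℕ) : ((DB i).card : ℝ) ≤ 8 * 2 ^ i := by
  have h1 : (DB i) ⊆ PB (2 ^ (i + 1)) := (filter_subset _ _).trans SPB_subset_PB
  have h2 := card_PB_le (X := 2 ^ (i + 1)) (by positivity)
  have h3 : ((DB i).card : ℝ) ≤ (PB (2 ^ (i + 1))).card := by exact_mod_cast card_le_card h1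
  calc _ ≤ _ := h3
    _ ≤ _ := h2
    _ = _ := by rw [pow_succ]; ring

/-- the block sum at level `l` -/
noncomputable def FS (D : O → O → ℂ) (α : O → ℂ) (i j l : ℕ) : ℝ :=
  ∑ s ∈ range (2 ^ (i + 1)), ∑ b ∈ DB j, ‖∑ a ∈ DB i with N a / 2 ^ l = s, α a * D a b‖ ^ 2

theorem FS_nonneg (D : O → O → ℂ) (α : O → ℂ) (i j l : ℕ) : 0 ≤ FS D α i j l :=
  sum_nonneg fun _ _ => sum_nonneg fun _ _ => by positivity

/-- sum over primary squarefree elements of norm `≤ x` in dyadic blocks -/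
theorem sum_dyadic {E : Type*} [AddCommMonoid E] {x : ℝ} {M : ℕ} (hM : x < 2 ^ M) (f : O → E)
    (hf : ∀ a, f a ≠ 0 → Primary a ∧ Squarefree a ∧ (N a : ℝ) ≤ x) :
    ∑ a ∈ PB x, f a = ∑ i ∈ range M, ∑ a ∈ DB i, f a := by
  classical
  have h1 : ∑ i ∈ range M, ∑ a ∈ DB i, f a = ∑ a ∈ (range M).biUnion DB, f a := by
    rw [sum_biUnion]
    intro i _ j _ hij
    rw [Function.onFun, disjoint_left]
    intro a ha hb
    exact hij ((mem_DB.1 ha).2.2.symm.trans (mem_DB.1 hb).2.2)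
  rw [h1]
  have e1 : ∑ a ∈ PB x, f a = ∑ a ∈ (PB x ∪ (range M).biUnion DB), f a := by
    refine sum_subset subset_union_left fun a _ ha => ?_
    by_contra hne
    have h := hf a hne
    exact ha (mem_PB.2 ⟨h.1, h.2.2⟩)
  have e2 : ∑ a ∈ (range M).biUnion DB, f a = ∑ a ∈ (PB x ∪ (range M).biUnion DB), f a := by
    refine sum_subset subset_union_right fun a _ ha => ?_
    by_contra hne
    have h := hf a hne
    apply ha
    rw [mem_biUnion]
    refine ⟨Nat.log 2 (N a), ?_, mem_DB.2 ⟨h.1, h.2.1, rfl⟩⟩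
    rw [mem_range]
    apply Nat.log_lt_of_lt_pow
    · have := h.1.one_le_N; omega
    · have : (N a : ℝ) < ((2 ^ M : ℕ) : ℝ) := by push_cast; linarith [h.2.2]
      exact_mod_cast this
  rw [e1, e2]

/-- **Reduction**: the bilinear sum with coupling is bounded by block sums. -/
theorem bil_le {w α β u : O → ℂ} {D : O → O → ℂ} {x : ℝ} (hx : 1 ≤ x) {M : ℕ} (hM : x < 2 ^ M)
    (hα : ∀ a, α a ≠ 0 → Primary a ∧ Squarefree a)
    (hβ : ∀ b, β b ≠ 0 → Primary b ∧ Squarefree b) (hβ1 : ∀ b, ‖β b‖ ≤ 1)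
    (hu : ∀ b, ‖u b‖ ≤ 1)
    (hD : ∀ a b, Primary a → Squarefree a → Primary b → Squarefree b → w (a * b) = u b * D a b) :
    ‖Bil w α β x‖ ≤ ∑ i ∈ range M, ∑ j ∈ range M, if (2 : ℝ) ^ (i + j) ≤ x then
      ∑ l ∈ range (M + 1), √(8 * 2 ^ j) * √(FS D α i j l) else 0 := by
  classical
  have hx0 : 0 < x := by linarith
  -- rewrite the inner condition
  have hY : ∀ b : O, Primary b → ∀ a : O, (N a < ⌊x / N b⌋₊ + 1 ↔ (N a : ℝ) * N b ≤ x) := by
    intro b hb a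
    have hb0 : (0 : ℝ) < N b := by exact_mod_cast N_pos hb.ne_zero
    rw [Nat.lt_succ_iff, Nat.le_floor_iff (by positivity), le_div_iff₀ hb0]
  have e1 : Bil w α β x = ∑ b ∈ PB x, ∑ a ∈ PB x,
      if (N a : ℝ) * N b ≤ x then α a * β b * w (a * b) else 0 := by
    rw [Bil, sum_comm]
    refine sum_congr rfl fun a ha => ?_
    rw [mem_PB] at ha
    have ha0 : (0 : ℝ) < N a := by exact_mod_cast N_pos ha.1.ne_zero
    rw [mul_sum, ← sum_filter]
    refine sum_congr ?_ fun b _ => by ring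
    ext b
    rw [mem_PB, mem_filter, mem_PB]
    rw [le_div_iff₀ ha0]
    constructor
    · rintro ⟨h1, h2⟩
      refine ⟨⟨h1, ?_⟩, by linarith⟩
      have := ha.1.one_le_N'
      have hb1 := h1.one_le_N'
      nlinarith
    · rintro ⟨⟨h1, _⟩, h2⟩
      exact ⟨h1, by linarith⟩
  have e2 : ∀ b ∈ PB x, ∑ a ∈ PB x, (if (N a : ℝ) * N b ≤ x then α a * β b * w (a * b) else 0) =
      ∑ i ∈ range M, ∑ a ∈ DB i, if (N a : ℝ) * N b ≤ x then α a * β b * w (a * b) else 0 := by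
    intro b hb
    rw [mem_PB] at hb
    refine sum_dyadic hM _ fun a ha => ?_
    rw [ne_eq, ite_eq_right_iff, Classical.not_imp] at ha
    have ha2 : α a ≠ 0 := by
      intro h; apply ha.2; rw [h]; ring
    refine ⟨(hα a ha2).1, (hα a ha2).2, ?_⟩
    have h1 := (hα a ha2).1.one_le_N'
    have h2 := hb.1.one_le_N'
    nlinarith [ha.1]
  rw [e1, sum_congr rfl e2]
  have e3 : ∑ b ∈ PB x, ∑ i ∈ range M, ∑ a ∈ DB i,
      (if (N a : ℝ) * N b ≤ x then α a * β b * w (a * b) else 0) =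
      ∑ j ∈ range M, ∑ b ∈ DB j, ∑ i ∈ range M, ∑ a ∈ DB i,
      (if (N a : ℝ) * N b ≤ x then α a * β b * w (a * b) else 0) := by
    refine sum_dyadic hM _ fun b hb => ?_
    obtain ⟨i, _, hi⟩ := exists_ne_zero_of_sum_ne_zero hb
    obtain ⟨a, _, ha⟩ := exists_ne_zero_of_sum_ne_zero hi
    rw [ne_eq, ite_eq_right_iff, Classical.not_imp] at ha
    have ha2 : α a ≠ 0 := by
      intro h; apply ha.2; rw [h]; ring
    have hb2 : β b ≠ 0 := by
      intro h; apply ha.2; rw [h]; ring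
    refine ⟨(hβ b hb2).1, (hβ b hb2).2, ?_⟩
    have h1 := (hα a ha2).1.one_le_N'
    have h2 := (hβ b hb2).1.one_le_N'
    nlinarith [ha.1]
  rw [e3]
  have e4 : ∑ j ∈ range M, ∑ b ∈ DB j, ∑ i ∈ range M, ∑ a ∈ DB i,
      (if (N a : ℝ) * N b ≤ x then α a * β b * w (a * b) else 0) =
      ∑ i ∈ range M, ∑ j ∈ range M, ∑ b ∈ DB j, ∑ a ∈ DB i,
      (if (N a : ℝ) * N b ≤ x then α a * β b * w (a * b) else 0) := by
    rw [sum_comm]
    have : ∀ j ∈ range M, ∑ b ∈ DB j, ∑ i ∈ range M, ∑ a ∈ DB i,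
      (if (N a : ℝ) * N b ≤ x then α a * β b * w (a * b) else 0) =
      ∑ i ∈ range M, ∑ b ∈ DB j, ∑ a ∈ DB i,
      (if (N a : ℝ) * N b ≤ x then α a * β b * w (a * b) else 0) := fun j _ => sum_comm
    rw [sum_comm]
    rw [sum_congr rfl this, sum_comm]
  rw [e4]
  refine (norm_sum_le _ _).trans (sum_le_sum fun i _ => (norm_sum_le _ _).trans
    (sum_le_sum fun j _ => ?_))
  split_ifs with hij
  · -- the chain
    have e5 : ∑ b ∈ DB j, ∑ a ∈ DB i,
        (if (N a : ℝ) * N b ≤ x then α a * β b * w (a * b) else 0) =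
        ∑ b ∈ DB j, (β b * u b) * ∑ a ∈ DB i with N a < ⌊x / N b⌋₊ + 1, α a * D a b := by
      refine sum_congr rfl fun b hb => ?_
      have hb' := mem_DB.1 hb
      rw [mul_sum, sum_filter]
      refine sum_congr rfl fun a ha => ?_
      have ha' := mem_DB.1 ha
      simp only [hY b hb'.1 a]
      split_ifs with h
      · rw [hD a b ha'.1 ha'.2.1 hb'.1 hb'.2.1]; ring
      · rfl
    rw [e5]
    have hYL : ∀ b ∈ DB j, ⌊x / N b⌋₊ + 1 < 2 ^ (M + 1) := by
      intro b hb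
      have hb' := mem_DB.1 hb
      have h1 : ⌊x / N b⌋₊ ≤ ⌊x⌋₊ := Nat.floor_mono (div_le_self hx0.le hb'.1.one_le_N')
      have h2 : ⌊x⌋₊ < 2 ^ M := by
        rw [Nat.floor_lt hx0.le]; push_cast; exact hM
      have h3 : 1 ≤ ⌊x⌋₊ := by rw [Nat.one_le_floor_iff]; exact hx
      rw [pow_succ]; omega
    refine (chain_cs (DB i) (DB j) (DB j) (Subset.refl _) (fun a => N a)
      (fun b => ⌊x / N b⌋₊ + 1) (fun b => β b * u b) (fun _ => 1) (fun _ _ => zero_le_one)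
      (fun _ _ => le_rfl) (fun a b => α a * D a b) hYL).trans ?_
    refine sum_le_sum fun l _ => ?_
    refine mul_le_mul (Real.sqrt_le_sqrt ?_) (Real.sqrt_le_sqrt ?_) (Real.sqrt_nonneg _)
      (Real.sqrt_nonneg _)
    · calc ∑ b ∈ DB j, ‖β b * u b‖ ^ 2 ≤ ∑ b ∈ DB j, (1 : ℝ) := by
            refine sum_le_sum fun b _ => ?_
            rw [norm_mul]
            have h1 := hβ1 b
            have h2 := hu b
            have h3 : ‖β b‖ * ‖u b‖ ≤ 1 := mul_le_one₀ h1 (norm_nonneg _) h2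
            have h4 : 0 ≤ ‖β b‖ * ‖u b‖ := by positivity
            nlinarith
        _ = (DB j).card := by simp
        _ ≤ _ := card_DB_le j
    · rw [FS]
      simp only [one_mul]
      have hz : ∀ s, s ∉ range (2 ^ (i + 1)) →
          ∑ b ∈ DB j, ‖∑ a ∈ DB i with N a / 2 ^ l = s, α a * D a b‖ ^ 2 = 0 := by
        intro s hs
        refine sum_eq_zero fun b _ => ?_
        have : (DB i).filter (fun a => N a / 2 ^ l = s) = ∅ := by
          rw [filter_eq_empty_iff]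
          intro a ha h
          apply hs
          rw [mem_range, ← h]
          exact (Nat.div_le_self _ _).trans_lt (DB_bounds ha).2
        rw [this]; simp
      have : ∑ s ∈ range (2 ^ (M + 1)), ∑ b ∈ DB j,
          ‖∑ a ∈ DB i with N a / 2 ^ l = s, α a * D a b‖ ^ 2 ≤
          ∑ s ∈ range (2 ^ (M + 1)) ∪ range (2 ^ (i + 1)), ∑ b ∈ DB j,
          ‖∑ a ∈ DB i with N a / 2 ^ l = s, α a * D a b‖ ^ 2 :=
        sum_le_sum_of_subset_of_nonneg subset_union_left fun s _ _ =>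
          sum_nonneg fun b _ => by positivity
      refine this.trans (le_of_eq ?_)
      symm
      exact sum_subset subset_union_right fun s _ hs => hz s hs
  · refine le_of_eq ?_
    rw [norm_eq_zero]
    refine sum_eq_zero fun b hb => sum_eq_zero fun a ha => ?_
    rw [if_neg]
    intro h
    apply hij
    have h1 := (DB_bounds ha).1
    have h2 := (DB_bounds hb).1
    have h3 : 2 ^ (i + j) ≤ N a * N b := by rw [pow_add]; exact Nat.mul_le_mul h1 h2
    calc (2 : ℝ) ^ (i + j) = ((2 ^ (i + j) : ℕ) : ℝ) := by push_cast; ring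
      _ ≤ ((N a * N b : ℕ) : ℝ) := by exact_mod_cast h3
      _ = (N a : ℝ) * N b := by push_cast; ring
      _ ≤ x := h


/-- **Assembly**: from the uniform block bound to the bilinear bound. -/
theorem bil_of_fam {w u : O → ℂ} {D : O → O → ℂ} (hu : ∀ b, ‖u b‖ ≤ 1)
    (hD : ∀ a b, Primary a → Squarefree a → Primary b → Squarefree b → w (a * b) = u b * D a b)
    (Cls : ℝ → ℝ → (O → ℂ) → Prop)
    (hCls : ∀ X G α, Cls X G α → ∀ a, α a ≠ 0 → Primary a ∧ Squarefree a)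
    (hfam : ∀ A : ℕ, ∃ C : ℝ, 0 ≤ C ∧ ∀ X : ℝ, 3 ≤ X → ∀ G : ℝ, 1 ≤ G → ∀ α, Cls X G α →
      ∀ i j l : ℕ, (2 : ℝ) ^ (i + j) ≤ X →
        FS D α i j l ≤ C * G ^ 2 * X ^ (5 / 3 : ℝ) / (2 ^ j * Real.log X ^ A)) :
    ∀ A : ℕ, ∃ C : ℝ, 0 ≤ C ∧ ∀ X : ℝ, 3 ≤ X → ∀ G : ℝ, 1 ≤ G → ∀ α β : O → ℂ, Cls X G α →
      (∀ b, ‖β b‖ ≤ 1) → (∀ b, β b ≠ 0 → Primary b ∧ Squarefree b) →
      ∀ x : ℝ, x ≤ X → ‖Bil w α β x‖ ≤ C * G * X ^ (5 / 6 : ℝ) / Real.log X ^ A := by
  intro A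
  obtain ⟨C, hC, hfam⟩ := hfam (2 * (A + 3))
  refine ⟨36 * √(8 * C), by positivity, fun X hX G hG α β hα hβ1 hβ x hx => ?_⟩
  have hX0 : 0 < X := by linarith
  have hL1 : 1 ≤ Real.log X := by
    rw [Real.le_log_iff_exp_le hX0]
    exact (Real.exp_one_lt_d9.le.trans (by norm_num)).trans hX
  set L := Real.log X with hLdef
  rcases lt_or_ge x 1 with hx1 | hx1
  · have : Bil w α β x = 0 := by
      rw [Bil, PB_eq_empty hx1, sum_empty]
    rw [this, norm_zero]
    positivity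
  set M : ℕ := ⌊Real.logb 2 X⌋₊ + 1 with hM
  have hlogb : 0 ≤ Real.logb 2 X := Real.logb_nonneg (by norm_num) (by linarith)
  have hM1 : x < 2 ^ M := by
    have h1 : X = 2 ^ (Real.logb 2 X) := (Real.rpow_logb (by norm_num) (by norm_num) hX0).symm
    have h2 : Real.logb 2 X < (M : ℝ) := by rw [hM]; push_cast; exact Nat.lt_floor_add_one _
    have h3 : (2 : ℝ) ^ (Real.logb 2 X) < 2 ^ (M : ℝ) :=
      Real.rpow_lt_rpow_of_exponent_lt (by norm_num) h2
    rw [Real.rpow_natCast] at h3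
    linarith
  have hM2 : (M : ℝ) ≤ 3 * L := by
    have h1 : (⌊Real.logb 2 X⌋₊ : ℝ) ≤ Real.logb 2 X := Nat.floor_le hlogb
    have h2 : Real.logb 2 X ≤ 2 * L := by
      rw [Real.logb, div_le_iff₀ (Real.log_pos (by norm_num))]
      have := Real.log_two_gt_d9
      nlinarith
    rw [hM]; push_cast
    linarith
  have hterm : ∀ i j l : ℕ, (2 : ℝ) ^ (i + j) ≤ x → √(8 * 2 ^ j) * √(FS D α i j l) ≤
      √(8 * C) * G * X ^ (5 / 6 : ℝ) / L ^ (A + 3) := by
    intro i j l hij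
    have h1 := hfam X hX G hG α hα i j l (hij.trans hx)
    have h2 : √(8 * 2 ^ j) * √(FS D α i j l) ≤
        √(8 * 2 ^ j) * √(C * G ^ 2 * X ^ (5 / 3 : ℝ) / (2 ^ j * L ^ (2 * (A + 3)))) :=
      mul_le_mul_of_nonneg_left (Real.sqrt_le_sqrt h1) (Real.sqrt_nonneg _)
    refine h2.trans (le_of_eq ?_)
    rw [← Real.sqrt_mul (by positivity)]
    have h3 : (8 : ℝ) * 2 ^ j * (C * G ^ 2 * X ^ (5 / 3 : ℝ) / (2 ^ j * L ^ (2 * (A + 3)))) =
        (8 * C) * (G * X ^ (5 / 6 : ℝ) / L ^ (A + 3)) ^ 2 := by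
      have h4 : X ^ (5 / 3 : ℝ) = (X ^ (5 / 6 : ℝ)) ^ 2 := by
        rw [← Real.rpow_natCast, ← Real.rpow_mul hX0.le]; norm_num
      rw [h4]
      have h5 : (2 : ℝ) ^ j ≠ 0 := by positivity
      have h6 : L ≠ 0 := by positivity
      rw [mul_comm 2 (A + 3), pow_mul L (A + 3) 2]
      field_simp
    rw [h3, Real.sqrt_mul (by positivity), Real.sqrt_sq (by positivity)]
    ring
  have hbil := bil_le (w := w) (α := α) (β := β) (u := u) (D := D) hx1 hM1 (hCls X G α hα) hβ hβ1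
    hu hD
  have hpos : 0 ≤ √(8 * C) * G * X ^ (5 / 6 : ℝ) / L ^ (A + 3) := by positivity
  calc ‖Bil w α β x‖ ≤ _ := hbil
    _ ≤ ∑ i ∈ range M, ∑ j ∈ range M, ∑ l ∈ range (M + 1),
        √(8 * C) * G * X ^ (5 / 6 : ℝ) / L ^ (A + 3) := by
        refine sum_le_sum fun i _ => sum_le_sum fun j _ => ?_
        split_ifs with hij
        · exact sum_le_sum fun l _ => hterm i j l hij
        · exact sum_nonneg fun _ _ => hpos
    _ = (M * (M * (M + 1))) * (√(8 * C) * G * X ^ (5 / 6 : ℝ) / L ^ (A + 3)) := by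
        simp only [sum_const, card_range, nsmul_eq_mul]
        push_cast
        ring
    _ ≤ (36 * L ^ 3) * (√(8 * C) * G * X ^ (5 / 6 : ℝ) / L ^ (A + 3)) := by
        refine mul_le_mul_of_nonneg_right ?_ hpos
        have hM0 : (0 : ℝ) ≤ M := by positivity
        have h1 : (M : ℝ) + 1 ≤ 4 * L := by linarith
        calc (M : ℝ) * (M * (M + 1)) ≤ (3 * L) * ((3 * L) * (4 * L)) := by gcongr
          _ = 36 * L ^ 3 := by ring
    _ = _ := by
        have h6 : L ≠ 0 := by positivity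
        rw [pow_add]
        field_simp

end Vale.Agent.P006.H611
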