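import Mathlib.Analysis.Distribution.SchwartzSpace.Fourier
import Mathlib.Analysis.Calculus.BumpFunction.Normed
import Mathlib.Analysis.Calculus.BumpFunction.InnerProduct
import Mathlib.Analysis.SpecialFunctions.ImproperIntegrals
import Mathlib.Analysis.Real.Pi.Bounds

/-!
P006, block T1S (helper611): a smoothed sharp cut-off as a superposition of `u ↦ e^{itu}`.
-/

namespace Vale.Agent.P006.H611

open MeasureTheory Set
open scoped FourierTransform SchwartzMap ContDiff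

/-- A mollifier with rapidly decaying Fourier transform. -/
theorem exists_mollifier : ∃ (ρ : ℝ → ℝ) (g : ℝ → ℂ), Continuous ρ ∧ (∀ x, 0 ≤ ρ x) ∧
    (∀ x, 1 ≤ |x| → ρ x = 0) ∧ (∫ x, ρ x = 1) ∧ Integrable ρ ∧ Continuous g ∧ Integrable g ∧
    (∀ k : ℕ, ∃ C : ℝ, ∀ ξ, ‖g ξ‖ * (1 + |ξ|) ^ k ≤ C) ∧
    (∀ x : ℝ, (ρ x : ℂ) = ∫ ξ : ℝ, Complex.exp (2 * Real.pi * Complex.I * x * ξ) * g ξ) := by
  let f : ContDiffBump (0 : ℝ) := ⟨1 / 2, 1, by norm_num, by norm_num⟩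
  let ρ : ℝ → ℝ := f.normed volume
  have hρs : ContDiff ℝ ∞ ρ := f.contDiff_normed
  have hρc : HasCompactSupport ρ := f.hasCompactSupport_normed
  have h1 : HasCompactSupport (fun x => (ρ x : ℂ)) := hρc.comp_left (g := fun x : ℝ => (x : ℂ)) (by simp)
  have h2 : ContDiff ℝ ∞ (fun x => (ρ x : ℂ)) := Complex.ofRealCLM.contDiff.comp hρs
  let F : 𝓢(ℝ, ℂ) := h1.toSchwartzMap h2
  let G : 𝓢(ℝ, ℂ) := 𝓕 F
  refine ⟨ρ, G, hρs.continuous, fun x => f.nonneg_normed x, ?_, f.integral_normed,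
    f.integrable_normed, G.continuous, G.integrable, ?_, ?_⟩
  · intro x hx
    have : x ∉ Function.support ρ := by
      rw [f.support_normed_eq]
      simpa [Metric.mem_ball] using hx
    simpa using this
  · intro k
    have h := SchwartzMap.one_add_le_sup_seminorm_apply (𝕜 := ℝ) (m := (k, 0)) (k := k) (n := 0)
      le_rfl le_rfl G
    refine ⟨2 ^ (k, 0).1 * ((Finset.Iic (k, 0)).sup fun m =>
      SchwartzMap.seminorm ℝ m.1 m.2) G, fun ξ => ?_⟩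
    have h3 := h ξ
    rw [norm_iteratedFDeriv_zero, Real.norm_eq_abs, mul_comm] at h3
    exact h3
  · intro x
    have h3 : 𝓕⁻ G = F := by simp [G]
    have h4 : (𝓕⁻ (G : ℝ → ℂ)) x = F x := by
      rw [← SchwartzMap.fourierInv_coe, h3]
    rw [Real.fourierInv_eq' ] at h4
    have h5 : F x = (ρ x : ℂ) := rfl
    rw [← h5, ← h4]
    congr 1
    ext ξ
    simp only [smul_eq_mul, RCLike.inner_apply, conj_trivial]
    congr 2
    push_cast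
    ring


/-- the kernel in the representation of the cut-off -/
noncomputable def kern (Δ ξ : ℝ) : ℂ :=
  ((Δ⁻¹ : ℝ) : ℂ) * ∫ s : ℝ in (-2)..(-Δ), Complex.exp ((-(2 * Real.pi * ξ / Δ : ℝ) * Complex.I) * s)

theorem norm_kern_le {Δ ξ : ℝ} (hΔ : 0 < Δ) (h1 : Δ ≤ 1) :
    ‖kern Δ ξ‖ ≤ 4 * Δ⁻¹ / (1 + |ξ| / Δ) := by
  have hx : 0 ≤ |ξ| / Δ := by positivity
  rw [kern, norm_mul, Complex.norm_real, Real.norm_eq_abs, abs_of_pos (inv_pos.2 hΔ),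
    show 4 * Δ⁻¹ / (1 + |ξ| / Δ) = Δ⁻¹ * (4 / (1 + |ξ| / Δ)) by ring]
  refine mul_le_mul_of_nonneg_left ?_ (inv_pos.2 hΔ).le
  rw [le_div_iff₀ (by positivity)]
  rcases le_or_gt (|ξ| / Δ) 1 with h | h
  · have h2 : ‖∫ s : ℝ in (-2)..(-Δ),
        Complex.exp ((-(2 * Real.pi * ξ / Δ : ℝ) * Complex.I) * s)‖ ≤ 1 * |(-Δ) - (-2)| := by
      refine intervalIntegral.norm_integral_le_of_norm_le_const fun s _ => ?_
      rw [Complex.norm_exp]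
      simp
    have h3 : |(-Δ) - (-2)| ≤ 2 := by rw [abs_le]; constructor <;> linarith
    have h4 := h2.trans (show 1 * |(-Δ) - (-2)| ≤ 2 by linarith)
    have h5 := mul_le_mul h4 (show 1 + |ξ| / Δ ≤ 2 by linarith) (by positivity) (by norm_num)
    linarith
  · have hξ : ξ ≠ 0 := by
      rintro rfl
      simp at h
      linarith
    set c : ℂ := (-(2 * Real.pi * ξ / Δ : ℝ) * Complex.I) with hc
    have hc0 : c ≠ 0 := by
      rw [hc]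
      simp [hξ, hΔ.ne', Real.pi_ne_zero]
    have hcn : ‖c‖ = 2 * Real.pi * (|ξ| / Δ) := by
      rw [hc]
      simp [abs_of_pos hΔ, abs_of_pos Real.pi_pos]
      ring
    rw [integral_exp_mul_complex hc0]
    have hn : ∀ s : ℝ, ‖Complex.exp (c * s)‖ = 1 := by
      intro s
      rw [Complex.norm_exp, hc]
      simp
    have h3 : ‖Complex.exp (c * (-Δ : ℝ)) - Complex.exp (c * (-2 : ℝ))‖ ≤ 2 :=
      (norm_sub_le _ _).trans (by rw [hn, hn]; norm_num)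
    rw [norm_div, hcn, div_mul_eq_mul_div, div_le_iff₀ (by positivity)]
    have hpi := Real.pi_gt_d2
    have h4 : ‖Complex.exp (c * (-Δ : ℝ)) - Complex.exp (c * (-2 : ℝ))‖ * (1 + |ξ| / Δ)
      ≤ 2 * (1 + |ξ| / Δ) := by gcongr
    refine (by simpa using h4 : _ ≤ _).trans ?_
    nlinarith

/-- The smoothed cut-off function. -/
noncomputable def cutH (ρ : ℝ → ℝ) (Δ u : ℝ) : ℝ := ∫ x in (u / Δ + 1)..((u + 2) / Δ), ρ x

section
variable {ρ : ℝ → ℝ} {g : ℝ → ℂ} {Δ : ℝ}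

theorem cutH_bounds (h0 : ∀ x, 0 ≤ ρ x) (hi : ∫ x, ρ x = 1) (hI : Integrable ρ)
    (hΔ : 0 < Δ) (h1 : Δ ≤ 1) (u : ℝ) : 0 ≤ cutH ρ Δ u ∧ cutH ρ Δ u ≤ 1 := by
  have hle : u / Δ + 1 ≤ (u + 2) / Δ := by
    rw [add_div]
    have : 1 ≤ 2 / Δ := by rw [le_div_iff₀ hΔ]; linarith
    linarith
  rw [cutH, intervalIntegral.integral_of_le hle]
  refine ⟨integral_nonneg h0, ?_⟩
  rw [← hi]
  exact setIntegral_le_integral hI (Filter.Eventually.of_forall h0)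

theorem cutH_eq_zero (h0 : ∀ x, 1 ≤ |x| → ρ x = 0) (hΔ : 0 < Δ) (h1 : Δ ≤ 1) {u : ℝ} (hu : 0 ≤ u) :
    cutH ρ Δ u = 0 := by
  have hle : u / Δ + 1 ≤ (u + 2) / Δ := by
    rw [add_div]
    have : 1 ≤ 2 / Δ := by rw [le_div_iff₀ hΔ]; linarith
    linarith
  rw [cutH]
  refine intervalIntegral.integral_zero_ae ?_
  refine Filter.Eventually.of_forall fun x hx => ?_
  rw [uIoc_of_le hle] at hx
  apply h0
  have : 0 ≤ u / Δ := by positivity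
  rw [abs_of_pos] <;> linarith [hx.1]

theorem cutH_eq_one (h0 : ∀ x, 1 ≤ |x| → ρ x = 0) (hi : ∫ x, ρ x = 1)
    (hΔ : 0 < Δ) (h1 : Δ ≤ 1) {u : ℝ} (hu : -1 ≤ u) (hu2 : u ≤ -(2 * Δ)) :
    cutH ρ Δ u = 1 := by
  have hle : u / Δ + 1 ≤ (u + 2) / Δ := by
    rw [add_div]
    have : 1 ≤ 2 / Δ := by rw [le_div_iff₀ hΔ]; linarith
    linarith
  have ha : u / Δ + 1 ≤ -1 := by
    have : u / Δ ≤ -2 := by rw [div_le_iff₀ hΔ]; linarith
    linarith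
  have hb : 1 ≤ (u + 2) / Δ := by rw [le_div_iff₀ hΔ]; linarith
  rw [cutH, intervalIntegral.integral_of_le hle, ← hi]
  refine setIntegral_eq_integral_of_forall_compl_eq_zero fun x hx => h0 x ?_
  by_contra hcon
  push Not at hcon
  rw [abs_lt] at hcon
  exact hx ⟨by linarith [hcon.1], by linarith [hcon.2]⟩

end


section
variable {ρ : ℝ → ℝ} {g : ℝ → ℂ} {Δ : ℝ}

theorem cutH_repr (hρ : ∀ x : ℝ, (ρ x : ℂ) = ∫ ξ : ℝ, Complex.exp (2 * Real.pi * Complex.I * x * ξ) * g ξ)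
    (hg : Integrable g) (hgc : Continuous g) (hΔ : 0 < Δ) (h1 : Δ ≤ 1) (u : ℝ) :
    (cutH ρ Δ u : ℂ) = ∫ ξ : ℝ,
      (g ξ * kern Δ ξ) * Complex.exp (((2 * Real.pi * ξ / Δ : ℝ) : ℂ) * Complex.I * u) := by
  have hne : Δ ≠ 0 := hΔ.ne'
  have hab : (-2 : ℝ) ≤ -Δ := by linarith
  -- change variables
  have e1 : (cutH ρ Δ u : ℂ) = ((Δ⁻¹ : ℝ) : ℂ) * ∫ s : ℝ in (-2)..(-Δ), (ρ (u / Δ - s / Δ) : ℂ) := by
    rw [intervalIntegral.integral_comp_sub_div (fun x => (ρ x : ℂ)) hne (u / Δ), cutH]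
    rw [show u / Δ - -Δ / Δ = u / Δ + 1 by field_simp; ring,
      show u / Δ - -2 / Δ = (u + 2) / Δ by ring]
    rw [intervalIntegral.integral_ofReal]
    simp only [Complex.real_smul, ← mul_assoc]
    rw [← Complex.ofReal_mul, inv_mul_cancel₀ hne]
    simp
  rw [e1, intervalIntegral.integral_of_le hab]
  have e2 : ∀ s : ℝ, (ρ (u / Δ - s / Δ) : ℂ) = ∫ ξ : ℝ,
      Complex.exp (2 * Real.pi * Complex.I * ((u / Δ - s / Δ : ℝ) : ℂ) * ξ) * g ξ := fun s => hρ _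
  simp only [e2]
  have hint : Integrable (Function.uncurry fun (s : ℝ) (ξ : ℝ) =>
      Complex.exp (2 * Real.pi * Complex.I * ((u / Δ - s / Δ : ℝ) : ℂ) * ξ) * g ξ)
      ((volume.restrict (Ioc (-2) (-Δ))).prod volume) := by
    have hG : Integrable (fun p : ℝ × ℝ => g p.2)
        ((volume.restrict (Ioc (-2) (-Δ))).prod volume) := hg.comp_snd _
    refine hG.mono ?_ ?_
    · refine Continuous.aestronglyMeasurable ?_
      unfold Function.uncurry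
      fun_prop
    · refine Filter.Eventually.of_forall fun p => ?_
      simp only [Function.uncurry]
      rw [norm_mul, Complex.norm_exp]
      have : (2 * Real.pi * Complex.I * ((u / Δ - p.1 / Δ : ℝ) : ℂ) * p.2 : ℂ).re = 0 := by
        rw [show (2 * Real.pi * Complex.I * ((u / Δ - p.1 / Δ : ℝ) : ℂ) * p.2 : ℂ)
          = ((2 * Real.pi * (u / Δ - p.1 / Δ) * p.2 : ℝ) : ℂ) * Complex.I by push_cast; ring]
        simp
      rw [this]
      simp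
  rw [integral_integral_swap hint, ← integral_const_mul]
  refine integral_congr_ae (Filter.Eventually.of_forall fun ξ => ?_)
  simp only [kern]
  rw [intervalIntegral.integral_of_le hab]
  have e3 : ∀ s : ℝ, Complex.exp (2 * Real.pi * Complex.I * ((u / Δ - s / Δ : ℝ) : ℂ) * ξ) * g ξ
      = (g ξ * Complex.exp (((2 * Real.pi * ξ / Δ : ℝ) : ℂ) * Complex.I * u)) *
        Complex.exp ((-(2 * Real.pi * ξ / Δ : ℝ) * Complex.I) * s) := by
    intro s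
    rw [mul_assoc (g ξ), ← Complex.exp_add, mul_comm (g ξ)]
    congr 2
    push_cast
    ring
  simp only [e3]
  rw [integral_const_mul]
  ring

end


theorem integrable_g_rpow {g : ℝ → ℂ} (hg : Integrable g) (hgc : Continuous g)
    (hb : ∃ C : ℝ, ∀ ξ, ‖g ξ‖ ≤ C) : Integrable fun ξ : ℝ => ‖g ξ‖ * |ξ| ^ (-(1 / 10) : ℝ) := by
  obtain ⟨C, hC⟩ := hb
  let F : ℝ → ℝ := indicator (Ioc 0 1) fun x => x ^ (-(1 / 10) : ℝ)
  have hF : Integrable F := by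
    rw [integrable_indicator_iff measurableSet_Ioc]
    have := (intervalIntegral.intervalIntegrable_rpow' (a := 0) (b := 1)
      (by norm_num : (-1 : ℝ) < -(1 / 10)))
    rwa [intervalIntegrable_iff_integrableOn_Ioc_of_le zero_le_one] at this
  have hF2 : Integrable fun ξ => F (-ξ) := hF.comp_neg
  have hdom : Integrable fun ξ => ‖g ξ‖ + C * (F ξ + F (-ξ)) :=
    hg.norm.add ((hF.add hF2).const_mul C)
  refine hdom.mono ?_ ?_
  · refine (hg.norm.aestronglyMeasurable).mul ?_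
    exact (Measurable.pow_const (measurable_norm.comp measurable_id) _).aestronglyMeasurable
  · refine Filter.Eventually.of_forall fun ξ => ?_
    have hC0 : 0 ≤ C := (norm_nonneg _).trans (hC 0)
    have hF0 : ∀ x, 0 ≤ F x := fun x => indicator_nonneg (fun y hy => by
      have : 0 < y := hy.1
      positivity) x
    have key : |ξ| ^ (-(1 / 10) : ℝ) ≤ 1 + (F ξ + F (-ξ)) ∧
        (1 < |ξ| → |ξ| ^ (-(1 / 10) : ℝ) ≤ 1) := by
      have h1 : 1 < |ξ| → |ξ| ^ (-(1 / 10) : ℝ) ≤ 1 := fun h =>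
        Real.rpow_le_one_of_one_le_of_nonpos h.le (by norm_num)
      refine ⟨?_, h1⟩
      rcases lt_or_ge 1 |ξ| with h | h
      · have := h1 h
        linarith [hF0 ξ, hF0 (-ξ)]
      · rcases lt_trichotomy ξ 0 with h3 | h3 | h3
        · have : F (-ξ) = |ξ| ^ (-(1 / 10) : ℝ) := by
            rw [abs_of_neg h3] at h ⊢
            exact indicator_of_mem (show -ξ ∈ Ioc (0 : ℝ) 1 from ⟨by linarith, h⟩) _
          linarith [hF0 ξ]
        · subst h3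
          have : |(0 : ℝ)| ^ (-(1 / 10) : ℝ) = 0 := by
            rw [abs_zero, Real.zero_rpow (by norm_num)]
          rw [this]
          linarith [hF0 0, hF0 (-0)]
        · have : F ξ = |ξ| ^ (-(1 / 10) : ℝ) := by
            rw [abs_of_pos h3] at h ⊢
            exact indicator_of_mem (show ξ ∈ Ioc (0 : ℝ) 1 from ⟨h3, h⟩) _
          linarith [hF0 (-ξ)]
    have h0 : 0 ≤ |ξ| ^ (-(1 / 10) : ℝ) := Real.rpow_nonneg (abs_nonneg _) _
    have hA : 0 ≤ ‖g ξ‖ * |ξ| ^ (-(1 / 10) : ℝ) := by positivity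
    have hB : 0 ≤ ‖g ξ‖ + C * (F ξ + F (-ξ)) := by
      have := hF0 ξ
      have := hF0 (-ξ)
      positivity
    rw [Real.norm_of_nonneg hA, Real.norm_of_nonneg hB]
    calc ‖g ξ‖ * |ξ| ^ (-(1 / 10) : ℝ) ≤ ‖g ξ‖ * (1 + (F ξ + F (-ξ))) := by
          gcongr; exact key.1
      _ = ‖g ξ‖ + ‖g ξ‖ * (F ξ + F (-ξ)) := by ring
      _ ≤ ‖g ξ‖ + C * (F ξ + F (-ξ)) := by
        have := mul_le_mul_of_nonneg_right (hC ξ) (add_nonneg (hF0 ξ) (hF0 (-ξ)))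
        linarith

theorem integrable_g_mul {g : ℝ → ℂ} (hgc : Continuous g)
    (hb : ∀ k : ℕ, ∃ C : ℝ, ∀ ξ, ‖g ξ‖ * (1 + |ξ|) ^ k ≤ C) :
    Integrable fun ξ : ℝ => ‖g ξ‖ * (1 + |ξ|) ^ (9 / 10 : ℝ) := by
  obtain ⟨C, hC⟩ := hb 3
  have hdom : Integrable fun ξ : ℝ => C * (1 + ‖ξ‖ ^ 2) ^ (-(2 : ℝ) / 2) := by
    refine Integrable.const_mul ?_ C
    exact integrable_rpow_neg_one_add_norm_sq (by simp)
  refine hdom.mono ?_ ?_
  · refine Continuous.aestronglyMeasurable ?_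
    refine hgc.norm.mul ?_
    exact Continuous.rpow_const (by fun_prop) (fun x => Or.inl (by positivity))
  · refine Filter.Eventually.of_forall fun ξ => ?_
    have hC0 : 0 ≤ C := le_trans (by positivity) (hC 0)
    have hx : 0 ≤ |ξ| := abs_nonneg ξ
    have hA : 0 ≤ ‖g ξ‖ * (1 + |ξ|) ^ (9 / 10 : ℝ) := by positivity
    have hB : 0 ≤ C * (1 + ‖ξ‖ ^ 2) ^ (-(2 : ℝ) / 2) := by positivity
    rw [Real.norm_of_nonneg hA, Real.norm_of_nonneg hB]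
    rw [show (-(2 : ℝ) / 2) = -1 by norm_num, Real.rpow_neg_one, ← div_eq_mul_inv,
      le_div_iff₀ (by positivity)]
    have h1 : (1 + |ξ|) ^ (9 / 10 : ℝ) ≤ 1 + |ξ| := by
      conv_rhs => rw [← Real.rpow_one (1 + |ξ|)]
      exact Real.rpow_le_rpow_of_exponent_le (by linarith) (by norm_num)
    have h2 : 1 + ‖ξ‖ ^ 2 ≤ (1 + |ξ|) ^ 2 := by
      rw [Real.norm_eq_abs]; nlinarith
    calc ‖g ξ‖ * (1 + |ξ|) ^ (9 / 10 : ℝ) * (1 + ‖ξ‖ ^ 2)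
        ≤ ‖g ξ‖ * (1 + |ξ|) * (1 + |ξ|) ^ 2 := by gcongr
      _ = ‖g ξ‖ * (1 + |ξ|) ^ 3 := by ring
      _ ≤ C := hC ξ


theorem kern_weight {Δ : ℝ} (hΔ : 0 < Δ) (h1 : Δ ≤ 1) (ξ : ℝ) {a : ℝ} (ha0 : 0 ≤ a) (ha : a ≤ 19 / 10) :
    ‖kern Δ ξ‖ * (1 + |2 * Real.pi * ξ / Δ|) ^ a ≤ 400 * Δ⁻¹ * (1 + |ξ| / Δ) ^ (a - 1) := by
  have hx : 0 ≤ |ξ| / Δ := by positivity
  have e1 : |2 * Real.pi * ξ / Δ| = 2 * Real.pi * (|ξ| / Δ) := by
    rw [abs_div, abs_mul, abs_mul, abs_of_pos hΔ, abs_of_pos Real.pi_pos, abs_two]; ring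
  have hpi : 2 * Real.pi ≤ 7 := by have := Real.pi_lt_d2; linarith
  have hpi1 : 1 ≤ 2 * Real.pi := by have := Real.pi_gt_d2; linarith
  have e2 : 1 + |2 * Real.pi * ξ / Δ| ≤ 7 * (1 + |ξ| / Δ) := by
    rw [e1]
    nlinarith
  have e3 : (1 + |2 * Real.pi * ξ / Δ|) ^ a ≤ 49 * (1 + |ξ| / Δ) ^ a := by
    calc (1 + |2 * Real.pi * ξ / Δ|) ^ a ≤ (7 * (1 + |ξ| / Δ)) ^ a :=
          Real.rpow_le_rpow (by positivity) e2 ha0
      _ = 7 ^ a * (1 + |ξ| / Δ) ^ a := Real.mul_rpow (by norm_num) (by positivity)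
      _ ≤ 49 * (1 + |ξ| / Δ) ^ a := by
          gcongr
          calc (7 : ℝ) ^ a ≤ 7 ^ (2 : ℝ) :=
                Real.rpow_le_rpow_of_exponent_le (by norm_num) (by linarith)
            _ = 49 := by norm_num
  calc ‖kern Δ ξ‖ * (1 + |2 * Real.pi * ξ / Δ|) ^ a
      ≤ (4 * Δ⁻¹ / (1 + |ξ| / Δ)) * (49 * (1 + |ξ| / Δ) ^ a) := by
        gcongr
        exact norm_kern_le hΔ h1
    _ = 196 * Δ⁻¹ * (1 + |ξ| / Δ) ^ (a - 1) := by
        rw [Real.rpow_sub (by positivity), Real.rpow_one]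
        ring
    _ ≤ _ := by
        gcongr
        norm_num

theorem kern_weight1 {Δ : ℝ} (hΔ : 0 < Δ) (h1 : Δ ≤ 1) {ξ : ℝ} (hξ : ξ ≠ 0) :
    ‖kern Δ ξ‖ * (1 + |2 * Real.pi * ξ / Δ|) ^ (9 / 10 : ℝ) ≤
      400 * Δ ^ (-(9 / 10) : ℝ) * |ξ| ^ (-(1 / 10) : ℝ) := by
  have hx : 0 < |ξ| := abs_pos.2 hξ
  refine (kern_weight hΔ h1 ξ (by norm_num) (by norm_num)).trans ?_
  rw [show (9 / 10 - 1 : ℝ) = -(1 / 10) by norm_num]
  calc 400 * Δ⁻¹ * (1 + |ξ| / Δ) ^ (-(1 / 10) : ℝ)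
      ≤ 400 * Δ⁻¹ * (|ξ| / Δ) ^ (-(1 / 10) : ℝ) := by
        refine mul_le_mul_of_nonneg_left ?_ (by positivity)
        exact Real.rpow_le_rpow_of_nonpos (by positivity) (by linarith) (by norm_num)
    _ = 400 * Δ ^ (-(9 / 10) : ℝ) * |ξ| ^ (-(1 / 10) : ℝ) := by
        rw [Real.div_rpow hx.le hΔ.le]
        have : Δ⁻¹ / Δ ^ (-(1 / 10) : ℝ) = Δ ^ (-(9 / 10) : ℝ) := by
          rw [← Real.rpow_neg_one, ← Real.rpow_sub hΔ]
          norm_num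
        rw [← this]
        ring

theorem kern_weight2 {Δ : ℝ} (hΔ : 0 < Δ) (h1 : Δ ≤ 1) (ξ : ℝ) :
    ‖kern Δ ξ‖ * (1 + |2 * Real.pi * ξ / Δ|) ^ (19 / 10 : ℝ) ≤
      400 * Δ ^ (-(19 / 10) : ℝ) * (1 + |ξ|) ^ (9 / 10 : ℝ) := by
  refine (kern_weight hΔ h1 ξ (by norm_num) (by norm_num)).trans ?_
  rw [show (19 / 10 - 1 : ℝ) = 9 / 10 by norm_num]
  have e1 : 1 + |ξ| / Δ ≤ (1 + |ξ|) / Δ := by
    rw [add_div]
    have : 1 ≤ 1 / Δ := by rw [le_div_iff₀ hΔ]; linarith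
    linarith
  calc 400 * Δ⁻¹ * (1 + |ξ| / Δ) ^ (9 / 10 : ℝ)
      ≤ 400 * Δ⁻¹ * ((1 + |ξ|) / Δ) ^ (9 / 10 : ℝ) := by
        gcongr
    _ = 400 * Δ ^ (-(19 / 10) : ℝ) * (1 + |ξ|) ^ (9 / 10 : ℝ) := by
        rw [Real.div_rpow (by positivity) hΔ.le]
        have : Δ⁻¹ / Δ ^ (9 / 10 : ℝ) = Δ ^ (-(19 / 10) : ℝ) := by
          rw [← Real.rpow_neg_one, ← Real.rpow_sub hΔ]
          norm_num
        rw [← this]
        ring


theorem continuous_kern (Δ : ℝ) : Continuous (kern Δ) := by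
  unfold kern
  refine continuous_const.mul ?_
  refine intervalIntegral.continuous_parametric_intervalIntegral_of_continuous' ?_ _ _
  unfold Function.uncurry
  fun_prop

/-- **Smoothed sharp cut-off.**  A linear-in-weight estimate which is available for all twists
`e^{ity}` with polynomial loss in `t` is available for the cut-off `h` of sharpness `Δ`. -/
theorem exists_cut : ∃ K : ℝ, 0 ≤ K ∧ ∀ Δ : ℝ, 0 < Δ → Δ ≤ 1 → ∃ h : ℝ → ℝ,
    (∀ u, 0 ≤ h u ∧ h u ≤ 1) ∧ (∀ u, 0 ≤ u → h u = 0) ∧ (∀ u, -1 ≤ u → u ≤ -(2 * Δ) → h u = 1) ∧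
    ∀ {ι κ : Type} (Bs : Finset κ) (Cs : Finset ι) (y : ι → ℝ) (x : κ → ι → ℂ) (M1 M2 : ℝ),
      0 ≤ M1 → 0 ≤ M2 →
      (∀ t : ℝ, ∑ b ∈ Bs, ‖∑ c ∈ Cs, x b c * Complex.exp ((t : ℂ) * Complex.I * y c)‖ ≤
        M1 * (1 + |t|) ^ (9 / 10 : ℝ) + M2 * (1 + |t|) ^ (19 / 10 : ℝ)) →
      ∑ b ∈ Bs, ‖∑ c ∈ Cs, x b c * (h (y c) : ℂ)‖ ≤
        K * (M1 * Δ ^ (-(9 / 10) : ℝ) + M2 * Δ ^ (-(19 / 10) : ℝ)) := by
  obtain ⟨ρ, g, hρc, hρ0, hρs, hρi, hρI, hgc, hgI, hgb, hrep⟩ := exists_mollifier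
  have hgb0 : ∃ C : ℝ, ∀ ξ, ‖g ξ‖ ≤ C := by
    obtain ⟨C, hC⟩ := hgb 0
    exact ⟨C, fun ξ => by simpa using hC ξ⟩
  have I1 := integrable_g_rpow hgI hgc hgb0
  have I2 := integrable_g_mul hgc hgb
  set A1 := ∫ ξ : ℝ, ‖g ξ‖ * |ξ| ^ (-(1 / 10) : ℝ) with hA1
  set A2 := ∫ ξ : ℝ, ‖g ξ‖ * (1 + |ξ|) ^ (9 / 10 : ℝ) with hA2
  have hA10 : 0 ≤ A1 := integral_nonneg fun ξ => by positivity
  have hA20 : 0 ≤ A2 := integral_nonneg fun ξ => by positivity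
  refine ⟨400 * (A1 + A2), by positivity, fun Δ hΔ h1 => ⟨cutH ρ Δ,
    cutH_bounds hρ0 hρi hρI hΔ h1, fun u hu => cutH_eq_zero hρs hΔ h1 hu,
    fun u hu hu2 => cutH_eq_one hρs hρi hΔ h1 hu hu2, ?_⟩⟩
  intro ι κ Bs Cs y x M1 M2 hM1 hM2 hyp
  have hk : ∀ ξ, ‖kern Δ ξ‖ ≤ 4 * Δ⁻¹ := fun ξ => (norm_kern_le hΔ h1).trans (by
    have : 0 ≤ |ξ| / Δ := by positivity
    refine div_le_self (by positivity) (by linarith))
  have hgk : Integrable fun ξ => g ξ * kern Δ ξ := by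
    refine hgI.mul_bdd (c := 4 * Δ⁻¹) (continuous_kern Δ).aestronglyMeasurable
      (Filter.Eventually.of_forall hk)
  have hexp : ∀ (u : ℝ), Integrable fun ξ : ℝ => (g ξ * kern Δ ξ) *
      Complex.exp (((2 * Real.pi * ξ / Δ : ℝ) : ℂ) * Complex.I * u) := by
    intro u
    refine hgk.mul_bdd (c := 1) (Continuous.aestronglyMeasurable (by fun_prop))
      (Filter.Eventually.of_forall fun ξ => ?_)
    rw [Complex.norm_exp]
    simp
  -- representation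
  have rep : ∀ b, ∑ c ∈ Cs, x b c * (cutH ρ Δ (y c) : ℂ) = ∫ ξ : ℝ, (g ξ * kern Δ ξ) *
      ∑ c ∈ Cs, x b c * Complex.exp (((2 * Real.pi * ξ / Δ : ℝ) : ℂ) * Complex.I * y c) := by
    intro b
    have : ∀ ξ : ℝ, (g ξ * kern Δ ξ) *
      ∑ c ∈ Cs, x b c * Complex.exp (((2 * Real.pi * ξ / Δ : ℝ) : ℂ) * Complex.I * y c)
      = ∑ c ∈ Cs, x b c * ((g ξ * kern Δ ξ) *
        Complex.exp (((2 * Real.pi * ξ / Δ : ℝ) : ℂ) * Complex.I * y c)) := by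
      intro ξ
      rw [Finset.mul_sum]
      refine Finset.sum_congr rfl fun c _ => by ring
    simp only [this]
    rw [integral_finsetSum _ (fun c _ => (hexp (y c)).const_mul _)]
    refine Finset.sum_congr rfl fun c _ => ?_
    rw [integral_const_mul, cutH_repr hrep hgI hgc hΔ h1]
  have hcont : ∀ b, Continuous fun ξ : ℝ => ∑ c ∈ Cs, x b c *
      Complex.exp (((2 * Real.pi * ξ / Δ : ℝ) : ℂ) * Complex.I * y c) := by
    intro b; fun_prop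
  have hbd : ∀ b, ∀ ξ : ℝ, ‖∑ c ∈ Cs, x b c *
      Complex.exp (((2 * Real.pi * ξ / Δ : ℝ) : ℂ) * Complex.I * y c)‖ ≤ ∑ c ∈ Cs, ‖x b c‖ := by
    intro b ξ
    refine (norm_sum_le _ _).trans (Finset.sum_le_sum fun c _ => ?_)
    rw [norm_mul, Complex.norm_exp]
    simp
  have hint : ∀ b, Integrable fun ξ : ℝ => ‖g ξ * kern Δ ξ‖ * ‖∑ c ∈ Cs, x b c *
      Complex.exp (((2 * Real.pi * ξ / Δ : ℝ) : ℂ) * Complex.I * y c)‖ := by
    intro b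
    refine hgk.norm.mul_bdd (c := ∑ c ∈ Cs, ‖x b c‖) (hcont b).norm.aestronglyMeasurable
      (Filter.Eventually.of_forall fun ξ => ?_)
    rw [norm_norm]
    exact hbd b ξ
  calc ∑ b ∈ Bs, ‖∑ c ∈ Cs, x b c * (cutH ρ Δ (y c) : ℂ)‖
      ≤ ∑ b ∈ Bs, ∫ ξ : ℝ, ‖g ξ * kern Δ ξ‖ * ‖∑ c ∈ Cs, x b c *
          Complex.exp (((2 * Real.pi * ξ / Δ : ℝ) : ℂ) * Complex.I * y c)‖ := by
        refine Finset.sum_le_sum fun b _ => ?_
        rw [rep b]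
        refine (norm_integral_le_integral_norm _).trans (le_of_eq ?_)
        simp only [norm_mul]
    _ = ∫ ξ : ℝ, ‖g ξ * kern Δ ξ‖ * ∑ b ∈ Bs, ‖∑ c ∈ Cs, x b c *
          Complex.exp (((2 * Real.pi * ξ / Δ : ℝ) : ℂ) * Complex.I * y c)‖ := by
        rw [← integral_finsetSum _ (fun b _ => hint b)]
        simp only [Finset.mul_sum]
    _ ≤ ∫ ξ : ℝ, (M1 * (400 * Δ ^ (-(9 / 10) : ℝ))) * (‖g ξ‖ * |ξ| ^ (-(1 / 10) : ℝ)) +
          (M2 * (400 * Δ ^ (-(19 / 10) : ℝ))) * (‖g ξ‖ * (1 + |ξ|) ^ (9 / 10 : ℝ)) := by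
        refine integral_mono_ae ?_ ((I1.const_mul _).add (I2.const_mul _)) ?_
        · simp only [Finset.mul_sum]
          exact integrable_finsetSum _ fun b _ => hint b
        · have : ∀ᵐ ξ : ℝ, ξ ≠ 0 := by
            rw [ae_iff]
            simp
          filter_upwards [this] with ξ hξ
          have k1 := kern_weight1 hΔ h1 hξ
          have k2 := kern_weight2 hΔ h1 ξ
          have h3 := hyp (2 * Real.pi * ξ / Δ)
          rw [norm_mul]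
          calc ‖g ξ‖ * ‖kern Δ ξ‖ * ∑ b ∈ Bs, ‖∑ c ∈ Cs, x b c *
                Complex.exp (((2 * Real.pi * ξ / Δ : ℝ) : ℂ) * Complex.I * y c)‖
              ≤ ‖g ξ‖ * ‖kern Δ ξ‖ * (M1 * (1 + |2 * Real.pi * ξ / Δ|) ^ (9 / 10 : ℝ) +
                M2 * (1 + |2 * Real.pi * ξ / Δ|) ^ (19 / 10 : ℝ)) := by
                refine mul_le_mul_of_nonneg_left h3 (by positivity)
            _ = ‖g ξ‖ * M1 * (‖kern Δ ξ‖ * (1 + |2 * Real.pi * ξ / Δ|) ^ (9 / 10 : ℝ)) +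
                ‖g ξ‖ * M2 * (‖kern Δ ξ‖ * (1 + |2 * Real.pi * ξ / Δ|) ^ (19 / 10 : ℝ)) := by ring
            _ ≤ ‖g ξ‖ * M1 * (400 * Δ ^ (-(9 / 10) : ℝ) * |ξ| ^ (-(1 / 10) : ℝ)) +
                ‖g ξ‖ * M2 * (400 * Δ ^ (-(19 / 10) : ℝ) * (1 + |ξ|) ^ (9 / 10 : ℝ)) := by
                refine add_le_add (mul_le_mul_of_nonneg_left k1 (by positivity))
                  (mul_le_mul_of_nonneg_left k2 (by positivity))
            _ = _ := by ring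
    _ = (M1 * (400 * Δ ^ (-(9 / 10) : ℝ))) * A1 + (M2 * (400 * Δ ^ (-(19 / 10) : ℝ))) * A2 := by
        rw [integral_add (I1.const_mul _) (I2.const_mul _), integral_const_mul, integral_const_mul]
    _ ≤ 400 * (A1 + A2) * (M1 * Δ ^ (-(9 / 10) : ℝ) + M2 * Δ ^ (-(19 / 10) : ℝ)) := by
        have p1 : 0 ≤ Δ ^ (-(9 / 10) : ℝ) := by positivity
        have p2 : 0 ≤ Δ ^ (-(19 / 10) : ℝ) := by positivity
        have q1 : 0 ≤ M1 * Δ ^ (-(9 / 10) : ℝ) * A2 := by positivity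
        have q2 : 0 ≤ M2 * Δ ^ (-(19 / 10) : ℝ) * A1 := by positivity
        nlinarith

end Vale.Agent.P006.H611
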