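import Vale.Agent.P006.H570.Per
import Vale.Agent.P006.CR.Residue
import Vale.Agent.P006.H611.Cut
import Mathlib.Analysis.SpecialFunctions.SmoothTransition

/-!
P006, block T1S (helper611): Type I estimate with the sharp cut-off `N(c) ≤ X` from the smooth one.
-/

namespace Vale.Agent.P006.H611

open Finset H570
open scoped ContDiff Classical

/-- smooth cut-off, `1` for `x ≤ 1`, `0` for `x ≥ 2` -/
noncomputable def psi (x : ℝ) : ℝ := Real.smoothTransition (2 - x)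

/-- dyadic partition function -/
noncomputable def Udy (x : ℝ) : ℝ := psi x - psi (2 * x)

theorem psi_one {x : ℝ} (h : x ≤ 1) : psi x = 1 := Real.smoothTransition.one_of_one_le (by linarith)

theorem psi_zero {x : ℝ} (h : 2 ≤ x) : psi x = 0 := Real.smoothTransition.zero_of_nonpos (by linarith)

theorem psi_nonneg (x : ℝ) : 0 ≤ psi x := Real.smoothTransition.nonneg _

theorem psi_le_one (x : ℝ) : psi x ≤ 1 := Real.smoothTransition.le_one _

theorem contDiff_psi : ContDiff ℝ ∞ psi :=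
  Real.smoothTransition.contDiff.comp (contDiff_const.sub contDiff_id)

theorem contDiff_Udy : ContDiff ℝ ∞ Udy :=
  contDiff_psi.sub (contDiff_psi.comp (contDiff_const.mul contDiff_id))

theorem Udy_supp {x : ℝ} (h : Udy x ≠ 0) : 1 / 2 ≤ x ∧ x ≤ 2 := by
  by_contra hcon
  rw [not_and_or, not_le, not_le] at hcon
  apply h
  rcases hcon with h1 | h1
  · rw [Udy, psi_one (by linarith), psi_one (by linarith), sub_self]
  · rw [Udy, psi_zero h1.le, psi_zero (by linarith), sub_self]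

theorem abs_Udy_le (x : ℝ) : |Udy x| ≤ 1 := by
  rw [Udy, abs_le]
  constructor <;> linarith [psi_nonneg x, psi_nonneg (2 * x), psi_le_one x, psi_le_one (2 * x)]

theorem sum_Udy (J : ℕ) (x : ℝ) :
    ∑ j ∈ range (J + 1), Udy (2 ^ j * x) = psi x - psi (2 ^ (J + 1) * x) := by
  induction J with
  | zero => simp [Udy]
  | succ n ih =>
    rw [sum_range_succ, ih, Udy]
    rw [show 2 * (2 ^ (n + 1) * x) = 2 ^ (n + 1 + 1) * x by ring]
    ring

/-- the `P`-divisors of `c` -/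
noncomputable def pdiv (P : O → Prop) (c : O) : Finset O := (nb (N c)).filter fun m => P m ∧ m ∣ c

/-- trivial bound -/
theorem trivial_bound (P : O → Prop) (hP : ∀ c, P c → c ≠ 0) (D : ℝ) (S : Finset O) (x : O → ℂ) :
    ∑ m ∈ (nb D).filter P, ‖∑ c ∈ S.filter (fun c => P c ∧ m ∣ c), x c‖ ≤
      ∑ c ∈ S.filter P, ‖x c‖ * (pdiv P c).card := by
  calc ∑ m ∈ (nb D).filter P, ‖∑ c ∈ S.filter (fun c => P c ∧ m ∣ c), x c‖
      ≤ ∑ m ∈ (nb D).filter P, ∑ c ∈ S.filter (fun c => P c ∧ m ∣ c), ‖x c‖ :=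
        sum_le_sum fun m _ => norm_sum_le _ _
    _ = ∑ m ∈ (nb D).filter P, ∑ c ∈ S.filter P, if m ∣ c then ‖x c‖ else 0 := by
        refine sum_congr rfl fun m _ => ?_
        rw [← filter_filter, sum_filter]
    _ = ∑ c ∈ S.filter P, ∑ m ∈ (nb D).filter P, if m ∣ c then ‖x c‖ else 0 := sum_comm
    _ ≤ ∑ c ∈ S.filter P, ‖x c‖ * (pdiv P c).card := by
        refine sum_le_sum fun c hc => ?_
        rw [← sum_filter, sum_const, nsmul_eq_mul, mul_comm]
        refine mul_le_mul_of_nonneg_left ?_ (norm_nonneg _)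
        have : (((nb D).filter P).filter fun m => m ∣ c) ⊆ pdiv P c := by
          intro m hm
          simp only [mem_filter] at hm
          rw [pdiv, mem_filter, mem_nb (by positivity)]
          refine ⟨?_, hm.1.2, hm.2⟩
          have h0 : c ≠ 0 := hP c (mem_filter.1 hc).2
          exact_mod_cast Nat.le_of_dvd (N_pos h0) (N_dvd_N hm.2)
        exact_mod_cast card_le_card this


theorem nb_mono {x y : ℝ} (h : x ≤ y) (hx : 0 ≤ x) : nb x ⊆ nb y := fun _ hc =>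
  (mem_nb (hx.trans h)).2 (((mem_nb hx).1 hc).trans h)

theorem card_nb_le {x : ℝ} (hx : 1 ≤ x) : ((nb x).card : ℝ) ≤ 16 * x := by
  refine (card_nb (by linarith)).trans ?_
  have h1 : 1 ≤ √x := Real.one_le_sqrt.2 hx
  have h2 : √x ^ 2 = x := Real.sq_sqrt (by linarith)
  nlinarith

/-- elements of `O` with norm in a short interval -/
theorem short_count {X Y : ℝ} (hX : 1 ≤ X) (hY : 0 ≤ Y) (hYX : Y ≤ X) :
    (((nb X).filter fun c => X - Y < N c).card : ℝ) ≤ 4 * Y + 32 * √X := by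
  have hsub : nb (X - Y) ⊆ nb X := nb_mono (by linarith) (by linarith)
  have e1 : (nb X).filter (fun c => X - Y < (N c : ℝ)) = nb X \ nb (X - Y) := by
    ext c
    rw [mem_filter, mem_sdiff, mem_nb (x := X - Y) (by linarith), not_le]
  rw [e1, card_sdiff_of_subset hsub, Nat.cast_sub (card_le_card hsub)]
  have key : ∀ x : ℝ, 0 ≤ x → |((nb x).card : ℝ) - 2 * Real.pi * x / √3| ≤ 8 * (√x + 1) := by
    intro x hx
    have h := card_class_sub_le 0 1 one_ne_zero hx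
    simpa using h
  have a1 := abs_le.1 (key X (by linarith))
  have a2 := abs_le.1 (key (X - Y) (by linarith))
  have h1 : 1 ≤ √X := Real.one_le_sqrt.2 hX
  have h2 : √(X - Y) ≤ √X := Real.sqrt_le_sqrt (by linarith)
  have h4 : (1.73 : ℝ) < √3 := by
    rw [Real.lt_sqrt (by norm_num)]; norm_num
  have hc : 2 * Real.pi / √3 ≤ 4 := by
    rw [div_le_iff₀ (by positivity)]; nlinarith [Real.pi_lt_d2]
  have e2 : 2 * Real.pi * X / √3 - 2 * Real.pi * (X - Y) / √3 = (2 * Real.pi / √3) * Y := by ring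
  have e3 : (2 * Real.pi / √3) * Y ≤ 4 * Y := mul_le_mul_of_nonneg_right hc hY
  linarith [a1.2, a2.1]

/-- The smooth Type I hypothesis (with the dyadic weight `Udy`). -/
def T1Hyp (P : O → Prop) (w : O → ℂ) : Prop :=
  ∀ ε : ℝ, 0 < ε → ∃ C : ℝ, 0 ≤ C ∧ ∀ X D t : ℝ, 1 ≤ D → D ≤ X →
    ∑ b ∈ (nb D).filter P, ‖∑ c ∈ (nb (2 * X)).filter (fun c => P c ∧ b ∣ c),
      w c * Udy (N c / X) * Complex.exp ((t : ℂ) * Complex.I * (Real.log (N c) : ℝ))‖ ≤
    C * X ^ ε * ((X * D) ^ (1 / 2 : ℝ) * (1 + |t|) ^ (9 / 10 : ℝ) +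
      X ^ (1 / 2 : ℝ) * (1 + |t|) ^ (19 / 10 : ℝ))

/-- The divisor bound. -/
def DivHyp (P : O → Prop) : Prop :=
  ∀ ε : ℝ, 0 < ε → ∃ C : ℝ, 0 ≤ C ∧ ∀ c : O, c ≠ 0 → ((pdiv P c).card : ℝ) ≤ C * (N c : ℝ) ^ ε

section
variable {P : O → Prop} {w : O → ℂ}

/-- scale far below the cut-off, long range -/
theorem scale_long {C1 ε : ℝ} (hC1 : 0 ≤ C1) (hε : 0 < ε)
    (hT : ∀ X D t : ℝ, 1 ≤ D → D ≤ X →
    ∑ b ∈ (nb D).filter P, ‖∑ c ∈ (nb (2 * X)).filter (fun c => P c ∧ b ∣ c),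
      w c * Udy (N c / X) * Complex.exp ((t : ℂ) * Complex.I * (Real.log (N c) : ℝ))‖ ≤
    C1 * X ^ ε * ((X * D) ^ (1 / 2 : ℝ) * (1 + |t|) ^ (9 / 10 : ℝ) +
      X ^ (1 / 2 : ℝ) * (1 + |t|) ^ (19 / 10 : ℝ)))
    {X D Y : ℝ} (hD : 1 ≤ D) (hY : D ≤ Y) (hYX : 2 * Y ≤ X) :
    ∑ b ∈ (nb D).filter P, ‖∑ c ∈ (nb X).filter (fun c => P c ∧ b ∣ c),
      w c * Udy (N c / Y)‖ ≤ 2 * C1 * X ^ ε * (X * D) ^ (1 / 2 : ℝ) := by
  have hY0 : 0 < Y := by linarith
  have h := hT Y D 0 hD hY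
  have e1 : ∀ b, ∑ c ∈ (nb X).filter (fun c => P c ∧ b ∣ c), w c * (Udy (N c / Y) : ℂ) =
      ∑ c ∈ (nb (2 * Y)).filter (fun c => P c ∧ b ∣ c), w c * Udy (N c / Y) *
        Complex.exp (((0 : ℝ) : ℂ) * Complex.I * (Real.log (N c) : ℝ)) := by
    intro b
    simp only [Complex.ofReal_zero, zero_mul, Complex.exp_zero, mul_one]
    symm
    refine sum_subset (filter_subset_filter _ (nb_mono hYX (by linarith))) fun c hc hc2 => ?_
    have : (Udy (N c / Y) : ℝ) = 0 := by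
      by_contra hne
      have h1 := (Udy_supp hne).2
      apply hc2
      rw [mem_filter] at hc ⊢
      refine ⟨(mem_nb (by linarith)).2 ?_, hc.2⟩
      rwa [div_le_iff₀ hY0] at h1
    rw [this]; simp
  simp only [e1]
  refine h.trans ?_
  have h1 : Y ^ ε ≤ X ^ ε := Real.rpow_le_rpow hY0.le (by linarith) hε.le
  have h2 : (Y * D) ^ (1 / 2 : ℝ) ≤ (X * D) ^ (1 / 2 : ℝ) :=
    Real.rpow_le_rpow (by positivity) (by nlinarith) (by norm_num)
  have h3 : Y ^ (1 / 2 : ℝ) ≤ (X * D) ^ (1 / 2 : ℝ) :=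
    Real.rpow_le_rpow (by positivity) (by nlinarith) (by norm_num)
  have h4 : (0 : ℝ) ≤ X := by linarith
  simp only [abs_zero, add_zero, Real.one_rpow, mul_one]
  calc C1 * Y ^ ε * ((Y * D) ^ (1 / 2 : ℝ) + Y ^ (1 / 2 : ℝ))
      ≤ C1 * X ^ ε * ((X * D) ^ (1 / 2 : ℝ) + (X * D) ^ (1 / 2 : ℝ)) := by gcongr
    _ = _ := by ring

/-- trivial bound at a short scale -/
theorem scale_short {Ct ε : ℝ} (hε : 0 < ε) (hCt : 0 ≤ Ct) (hP : ∀ c, P c → c ≠ 0)
    (hw : ∀ c, ‖w c‖ ≤ 2)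
    (hdiv : ∀ c : O, c ≠ 0 → ((pdiv P c).card : ℝ) ≤ Ct * (N c : ℝ) ^ ε)
    {X D Y : ℝ} (hD : 1 ≤ D) (hY0 : 0 < Y) (hY : Y ≤ D) (hDX : D ≤ X) :
    ∑ b ∈ (nb D).filter P, ‖∑ c ∈ (nb X).filter (fun c => P c ∧ b ∣ c),
      w c * Udy (N c / Y)‖ ≤ 64 * Ct * X ^ ε * D := by
  refine (trivial_bound P hP D (nb X) _).trans ?_
  have hX0 : 1 ≤ X := hD.trans hDX
  have hb : ∀ c ∈ (nb X).filter P, ‖w c * (Udy (N c / Y) : ℂ)‖ * ((pdiv P c).card : ℝ) ≤
      if c ∈ nb (2 * D) then 2 * (Ct * X ^ ε) else 0 := by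
    intro c hc
    rw [mem_filter, mem_nb (by linarith)] at hc
    have hU : ‖(Udy (N c / Y) : ℂ)‖ ≤ 1 := by
      rw [Complex.norm_real]; exact abs_Udy_le _
    split_ifs with h
    · rw [norm_mul]
      have h1 := hdiv c (hP c hc.2)
      have h2 : (N c : ℝ) ^ ε ≤ X ^ ε := Real.rpow_le_rpow (by positivity) hc.1 hε.le
      calc ‖w c‖ * ‖(Udy (N c / Y) : ℂ)‖ * ((pdiv P c).card : ℝ)
          ≤ 2 * 1 * (Ct * X ^ ε) := by
            gcongr
            · exact hw c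
            · exact h1.trans (by gcongr)
        _ = _ := by ring
    · have : (Udy (N c / Y) : ℝ) = 0 := by
        by_contra hne
        have h1 := (Udy_supp hne).2
        apply h
        rw [mem_nb (by linarith)]
        rw [div_le_iff₀ hY0] at h1
        linarith
      rw [this]; simp
  refine (sum_le_sum hb).trans ?_
  rw [← sum_filter, sum_const, nsmul_eq_mul]
  have h1 : ((((nb X).filter P).filter fun c => c ∈ nb (2 * D)).card : ℝ) ≤ 16 * (2 * D) := by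
    refine le_trans ?_ (card_nb_le (show 1 ≤ 2 * D by linarith))
    exact_mod_cast card_le_card fun c hc => (mem_filter.1 hc).2
  calc _ ≤ 16 * (2 * D) * (2 * (Ct * X ^ ε)) := by gcongr
    _ = _ := by ring


/-- the top scale: the smooth part plus the boundary -/
theorem scale_top {C1 Ct ε K Δ : ℝ} (hC1 : 0 ≤ C1) (_hK : 0 ≤ K) (hε : 0 < ε) (hCt : 0 ≤ Ct)
    (hP : ∀ c, P c → c ≠ 0) (hw : ∀ c, ‖w c‖ ≤ 2)
    (hdiv : ∀ c : O, c ≠ 0 → ((pdiv P c).card : ℝ) ≤ Ct * (N c : ℝ) ^ ε)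
    (hT : ∀ X D t : ℝ, 1 ≤ D → D ≤ X →
    ∑ b ∈ (nb D).filter P, ‖∑ c ∈ (nb (2 * X)).filter (fun c => P c ∧ b ∣ c),
      w c * Udy (N c / X) * Complex.exp ((t : ℂ) * Complex.I * (Real.log (N c) : ℝ))‖ ≤
    C1 * X ^ ε * ((X * D) ^ (1 / 2 : ℝ) * (1 + |t|) ^ (9 / 10 : ℝ) +
      X ^ (1 / 2 : ℝ) * (1 + |t|) ^ (19 / 10 : ℝ)))
    (hΔ0 : 0 < Δ) (hΔ1 : Δ ≤ 1 / 2) {h : ℝ → ℝ}
    (hh : ∀ u, 0 ≤ h u ∧ h u ≤ 1) (hh0 : ∀ u, 0 ≤ u → h u = 0)
    (hh1 : ∀ u, -1 ≤ u → u ≤ -(2 * Δ) → h u = 1)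
    (hsum : ∀ {ι κ : Type} (Bs : Finset κ) (Cs : Finset ι) (y : ι → ℝ) (x : κ → ι → ℂ)
      (M1 M2 : ℝ), 0 ≤ M1 → 0 ≤ M2 →
      (∀ t : ℝ, ∑ b ∈ Bs, ‖∑ c ∈ Cs, x b c * Complex.exp ((t : ℂ) * Complex.I * y c)‖ ≤
        M1 * (1 + |t|) ^ (9 / 10 : ℝ) + M2 * (1 + |t|) ^ (19 / 10 : ℝ)) →
      ∑ b ∈ Bs, ‖∑ c ∈ Cs, x b c * (h (y c) : ℂ)‖ ≤
        K * (M1 * Δ ^ (-(9 / 10) : ℝ) + M2 * Δ ^ (-(19 / 10) : ℝ)))
    {X D : ℝ} (hD : 1 ≤ D) (hDX : D ≤ X) :
    ∑ b ∈ (nb D).filter P, ‖∑ c ∈ (nb X).filter (fun c => P c ∧ b ∣ c), w c * Udy (N c / X)‖ ≤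
      K * (C1 * X ^ ε * (X * D) ^ (1 / 2 : ℝ) * Δ ^ (-(9 / 10) : ℝ) +
        C1 * X ^ ε * X ^ (1 / 2 : ℝ) * Δ ^ (-(19 / 10) : ℝ)) +
      2 * Ct * X ^ ε * (8 * Δ * X + 32 * √X) := by
  have hX1 : 1 ≤ X := hD.trans hDX
  have hX0 : 0 < X := by linarith
  -- split
  have split : ∀ b, ‖∑ c ∈ (nb X).filter (fun c => P c ∧ b ∣ c), w c * (Udy (N c / X) : ℂ)‖ ≤
      ‖∑ c ∈ nb (2 * X), (if P c ∧ b ∣ c then w c * (Udy (N c / X) : ℂ) else 0) *
        (h (Real.log (N c) - Real.log X) : ℂ)‖ +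
      ‖∑ c ∈ (nb X).filter (fun c => P c ∧ b ∣ c),
        w c * (Udy (N c / X) : ℂ) * (1 - h (Real.log (N c) - Real.log X) : ℂ)‖ := by
    intro b
    have e1 : ∑ c ∈ nb (2 * X), (if P c ∧ b ∣ c then w c * (Udy (N c / X) : ℂ) else 0) *
        (h (Real.log (N c) - Real.log X) : ℂ) = ∑ c ∈ (nb X).filter (fun c => P c ∧ b ∣ c),
          w c * (Udy (N c / X) : ℂ) * (h (Real.log (N c) - Real.log X) : ℂ) := by
      rw [sum_filter]
      symm
      have hsub : nb X ⊆ nb (2 * X) := nb_mono (by linarith) hX0.le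
      refine (sum_subset hsub fun c _ hc2 => ?_).trans (sum_congr rfl fun c _ => ?_)
      · have hN : X ≤ N c := by
          rw [mem_nb hX0.le, not_le] at hc2
          exact hc2.le
        have : h (Real.log (N c) - Real.log X) = 0 := by
          apply hh0
          have := Real.log_le_log hX0 hN
          linarith
        rw [this]
        simp
      · split_ifs <;> simp
    rw [e1]
    refine le_trans (le_of_eq ?_) (norm_add_le _ _)
    rw [← sum_add_distrib]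
    congr 1
    refine sum_congr rfl fun c _ => ?_
    ring
  refine (sum_le_sum fun b _ => split b).trans ?_
  rw [sum_add_distrib]
  refine add_le_add ?_ ?_
  · -- smooth part
    refine hsum _ _ (fun c => Real.log (N c) - Real.log X) _ _ _ (by positivity) (by positivity) ?_
    intro t
    have hT' := hT X D t hD hDX
    refine le_trans (le_of_eq ?_) (hT'.trans (le_of_eq (by ring)))
    refine sum_congr rfl fun b _ => ?_
    have e2 : ∀ c : O, Complex.exp ((t : ℂ) * Complex.I * ((Real.log (N c) - Real.log X : ℝ) : ℂ)) =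
        Complex.exp ((t : ℂ) * Complex.I * (Real.log (N c) : ℝ)) *
          Complex.exp (-((t : ℂ) * Complex.I * (Real.log X : ℝ))) := by
      intro c
      rw [← Complex.exp_add]
      congr 1
      push_cast
      ring
    simp only [e2]
    have e3 : ∑ c ∈ nb (2 * X), (if P c ∧ b ∣ c then w c * (Udy (N c / X) : ℂ) else 0) *
        (Complex.exp ((t : ℂ) * Complex.I * (Real.log (N c) : ℝ)) *
          Complex.exp (-((t : ℂ) * Complex.I * (Real.log X : ℝ)))) =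
        (∑ c ∈ (nb (2 * X)).filter (fun c => P c ∧ b ∣ c),
          w c * Udy (N c / X) * Complex.exp ((t : ℂ) * Complex.I * (Real.log (N c) : ℝ))) *
            Complex.exp (-((t : ℂ) * Complex.I * (Real.log X : ℝ))) := by
      rw [sum_filter, sum_mul]
      refine sum_congr rfl fun c _ => ?_
      split_ifs <;> ring
    rw [e3, norm_mul]
    have : ‖Complex.exp (-((t : ℂ) * Complex.I * (Real.log X : ℝ)))‖ = 1 := by
      rw [Complex.norm_exp]
      simp
    rw [this, mul_one]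
  · -- boundary
    refine (trivial_bound P hP D (nb X) _).trans ?_
    have hb : ∀ c ∈ (nb X).filter P, ‖w c * (Udy (N c / X) : ℂ) *
        (1 - h (Real.log (N c) - Real.log X) : ℂ)‖ * ((pdiv P c).card : ℝ) ≤
        if X - 2 * Δ * X < N c then 2 * (Ct * X ^ ε) else 0 := by
      intro c hc
      rw [mem_filter, mem_nb hX0.le] at hc
      have hU : ‖(Udy (N c / X) : ℂ)‖ ≤ 1 := by
        rw [Complex.norm_real]; exact abs_Udy_le _
      have hH : ‖(1 - h (Real.log (N c) - Real.log X) : ℂ)‖ ≤ 1 := by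
        rw [← Complex.ofReal_one, ← Complex.ofReal_sub, Complex.norm_real, Real.norm_eq_abs, abs_le]
        have := hh (Real.log (N c) - Real.log X)
        constructor <;> linarith [this.1, this.2]
      have hNpos : (0 : ℝ) < N c := by exact_mod_cast N_pos (hP c hc.2)
      split_ifs with h5
      · have h1 := hdiv c (hP c hc.2)
        have h2 : (N c : ℝ) ^ ε ≤ X ^ ε := Real.rpow_le_rpow (by positivity) hc.1 hε.le
        rw [norm_mul, norm_mul]
        calc ‖w c‖ * ‖(Udy (N c / X) : ℂ)‖ * ‖(1 - h (Real.log (N c) - Real.log X) : ℂ)‖ *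
              ((pdiv P c).card : ℝ)
            ≤ 2 * 1 * 1 * (Ct * X ^ ε) := by
              gcongr
              · exact hw c
              · exact h1.trans (by gcongr)
          _ = _ := by ring
      · rw [not_lt] at h5
        by_cases hne : Udy (N c / X) = 0
        · rw [hne]; simp
        · have h6 := (Udy_supp hne).1
          have h7 : h (Real.log (N c) - Real.log X) = 1 := by
            rw [← Real.log_div hNpos.ne' hX0.ne']
            apply hh1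
            · have h8 : Real.log (1 / 2) ≤ Real.log (N c / X) :=
                Real.log_le_log (by norm_num) h6
              have h9 : -1 ≤ Real.log (1 / 2) := by
                have := Real.one_sub_inv_le_log_of_pos (show (0 : ℝ) < 1 / 2 by norm_num)
                norm_num at this ⊢
                linarith
              linarith
            · have h8 : (N c : ℝ) / X ≤ 1 - 2 * Δ := by
                rw [div_le_iff₀ hX0]; linarith
              have h9 := Real.log_le_sub_one_of_pos (show (0 : ℝ) < N c / X by positivity)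
              linarith
          rw [h7]
          simp
    refine (sum_le_sum hb).trans ?_
    rw [← sum_filter, sum_const, nsmul_eq_mul]
    have hcard : ((((nb X).filter P).filter fun c => X - 2 * Δ * X < N c).card : ℝ) ≤
        4 * (2 * Δ * X) + 32 * √X := by
      refine le_trans ?_ (short_count hX1 (show 0 ≤ 2 * Δ * X by positivity)
        (by nlinarith))
      have : (((nb X).filter P).filter fun c => X - 2 * Δ * X < (N c : ℝ)) ⊆
          (nb X).filter fun c => X - 2 * Δ * X < N c := by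
        intro c hc
        simp only [mem_filter] at hc ⊢
        exact ⟨hc.1.1, hc.2⟩
      exact_mod_cast card_le_card this
    calc _ ≤ (4 * (2 * Δ * X) + 32 * √X) * (2 * (Ct * X ^ ε)) := by gcongr
      _ = _ := by ring


theorem pow3 {X : ℝ} (hX : 0 < X) (a b c : ℝ) : X ^ a * X ^ b * X ^ c = X ^ (a + b + c) := by
  rw [Real.rpow_add hX, Real.rpow_add hX]

/-- **Block T1S**: Type I estimate with sharp cut-off. -/
theorem type_one_sharp (hP : ∀ c, P c → c ≠ 0) (hw : ∀ c, ‖w c‖ ≤ 2) (hdiv : DivHyp P)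
    (hT : T1Hyp P w) :
    ∃ C : ℝ, 0 ≤ C ∧ ∀ X : ℝ, 1 ≤ X →
      ∑ m ∈ (nb (X ^ (1 / 3 + 1 / 1000 : ℝ))).filter P,
        ‖∑ c ∈ (nb X).filter (fun c => P c ∧ m ∣ c), w c‖ ≤ C * X ^ (5 / 6 - 1 / 1000 : ℝ) := by
  obtain ⟨K, hK, hcut⟩ := exists_cut
  obtain ⟨Ct, hCt, hdiv⟩ := hdiv (1 / 10000) (by norm_num)
  obtain ⟨C1, hC1, hT⟩ := hT (1 / 10000) (by norm_num)
  refine ⟨K * (C1 * 2 + C1 * 4) + 2 * Ct * 36 + 20001 * (2 * C1 + 64 * Ct), by positivity,
    fun X hX => ?_⟩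
  have hX0 : 0 < X := by linarith
  set D : ℝ := X ^ (1 / 3 + 1 / 1000 : ℝ) with hDdef
  have hD : 1 ≤ D := Real.one_le_rpow hX (by norm_num)
  have hDX : D ≤ X := by
    conv_rhs => rw [← Real.rpow_one X]
    exact Real.rpow_le_rpow_of_exponent_le hX (by norm_num)
  set Δ : ℝ := X ^ (-(1 / 6 + 3 / 1000) : ℝ) / 2 with hΔdef
  have hΔ0 : 0 < Δ := by positivity
  have hΔ1 : Δ ≤ 1 / 2 := by
    have : X ^ (-(1 / 6 + 3 / 1000) : ℝ) ≤ 1 := Real.rpow_le_one_of_one_le_of_nonpos hX (by norm_num)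
    rw [hΔdef]; linarith
  obtain ⟨h, hh, hh0, hh1, hsum⟩ := hcut Δ hΔ0 (by linarith)
  -- number of scales
  set J : ℕ := ⌈Real.logb 2 X⌉₊ with hJdef
  have hJ1 : X ≤ 2 ^ J := by
    have h1 : X = 2 ^ (Real.logb 2 X) := (Real.rpow_logb (by norm_num) (by norm_num) hX0).symm
    have h2 : (2 : ℝ) ^ (Real.logb 2 X) ≤ 2 ^ (J : ℝ) :=
      Real.rpow_le_rpow_of_exponent_le (by norm_num) (Nat.le_ceil _)
    rw [Real.rpow_natCast] at h2
    linarith
  have hJ2 : (J : ℝ) ≤ 20001 * X ^ (1 / 10000 : ℝ) := by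
    have h1 : (J : ℝ) < Real.logb 2 X + 1 := Nat.ceil_lt_add_one (Real.logb_nonneg (by norm_num) hX)
    have h2 : Real.logb 2 X ≤ 2 * Real.log X := by
      rw [Real.logb, div_le_iff₀ (Real.log_pos (by norm_num))]
      have := Real.log_two_gt_d9
      have h3 : 0 ≤ Real.log X := Real.log_nonneg hX
      nlinarith
    have h3 := Real.log_le_rpow_div hX0.le (show (0 : ℝ) < 1 / 10000 by norm_num)
    have h4 : 1 ≤ X ^ (1 / 10000 : ℝ) := Real.one_le_rpow hX (by norm_num)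
    have h5 : X ^ (1 / 10000 : ℝ) / (1 / 10000) = 10000 * X ^ (1 / 10000 : ℝ) := by ring
    rw [h5] at h3
    linarith
  -- pointwise partition of unity
  have hpart : ∀ c ∈ (nb X).filter P, ∑ j ∈ range (J + 1), Udy (N c / (X / 2 ^ j)) = 1 := by
    intro c hc
    rw [mem_filter, mem_nb hX0.le] at hc
    have e1 : ∀ j : ℕ, (N c : ℝ) / (X / 2 ^ j) = 2 ^ j * (N c / X) := by
      intro j; field_simp
    simp only [e1]
    have hN1 : (1 : ℝ) ≤ N c := by exact_mod_cast N_pos (hP c hc.2)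
    rw [sum_Udy, psi_one (by rw [div_le_one hX0]; exact hc.1), psi_zero, sub_zero]
    rw [pow_succ, mul_div_assoc', le_div_iff₀ hX0]
    nlinarith
  -- split into scales
  have hsplit : ∀ m, ‖∑ c ∈ (nb X).filter (fun c => P c ∧ m ∣ c), w c‖ ≤
      ∑ j ∈ range (J + 1), ‖∑ c ∈ (nb X).filter (fun c => P c ∧ m ∣ c),
        w c * (Udy (N c / (X / 2 ^ j)) : ℂ)‖ := by
    intro m
    refine le_trans (le_of_eq ?_) (norm_sum_le _ _)
    congr 1
    rw [sum_comm]
    refine sum_congr rfl fun c hc => ?_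
    rw [← mul_sum, ← Complex.ofReal_sum, hpart c ?_]
    · simp
    · rw [mem_filter] at hc ⊢
      exact ⟨hc.1, hc.2.1⟩
  have hε0 : (0 : ℝ) < 1 / 10000 := by norm_num
  have htop := scale_top hC1 hK hε0 hCt hP hw hdiv hT hΔ0 hΔ1 hh hh0 hh1 hsum hD hDX
  have hlow : ∀ j ∈ range J, ∑ b ∈ (nb D).filter P, ‖∑ c ∈ (nb X).filter (fun c => P c ∧ b ∣ c),
      w c * Udy (N c / (X / 2 ^ (j + 1)))‖ ≤ (2 * C1 + 64 * Ct) *
        (X ^ (1 / 10000 : ℝ) * X ^ (2 / 3 + 1 / 2000 : ℝ)) := by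
    intro j _
    have e0 : (X * D) ^ (1 / 2 : ℝ) = X ^ (2 / 3 + 1 / 2000 : ℝ) := by
      rw [hDdef]
      nth_rewrite 1 [← Real.rpow_one X]
      rw [← Real.rpow_add hX0, ← Real.rpow_mul hX0.le]
      norm_num
    have e1 : D ≤ X ^ (2 / 3 + 1 / 2000 : ℝ) :=
      Real.rpow_le_rpow_of_exponent_le hX (by norm_num)
    have hYpos : 0 < X / 2 ^ (j + 1) := by positivity
    rcases le_total D (X / 2 ^ (j + 1)) with h1 | h1
    · refine (scale_long hC1 hε0 hT hD h1 ?_).trans ?_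
      · rw [mul_div_assoc', div_le_iff₀ (by positivity), pow_succ]
        have : (1 : ℝ) ≤ 2 ^ j := one_le_pow₀ (by norm_num)
        nlinarith
      · rw [e0]
        have : 0 ≤ 64 * Ct * (X ^ (1 / 10000 : ℝ) * X ^ (2 / 3 + 1 / 2000 : ℝ)) := by positivity
        linarith
    · refine (scale_short hε0 hCt hP hw hdiv hD hYpos h1 hDX).trans ?_
      have h2 : 64 * Ct * X ^ (1 / 10000 : ℝ) * D ≤
          64 * Ct * X ^ (1 / 10000 : ℝ) * X ^ (2 / 3 + 1 / 2000 : ℝ) := by gcongr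
      have : 0 ≤ 2 * C1 * (X ^ (1 / 10000 : ℝ) * X ^ (2 / 3 + 1 / 2000 : ℝ)) := by positivity
      linarith
  calc ∑ m ∈ (nb D).filter P, ‖∑ c ∈ (nb X).filter (fun c => P c ∧ m ∣ c), w c‖
      ≤ ∑ m ∈ (nb D).filter P, ∑ j ∈ range (J + 1), ‖∑ c ∈ (nb X).filter (fun c => P c ∧ m ∣ c),
        w c * (Udy (N c / (X / 2 ^ j)) : ℂ)‖ := sum_le_sum fun m _ => hsplit m
    _ = ∑ j ∈ range (J + 1), ∑ m ∈ (nb D).filter P, ‖∑ c ∈ (nb X).filter (fun c => P c ∧ m ∣ c),
        w c * (Udy (N c / (X / 2 ^ j)) : ℂ)‖ := sum_comm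
    _ = ∑ j ∈ range J, ∑ m ∈ (nb D).filter P, ‖∑ c ∈ (nb X).filter (fun c => P c ∧ m ∣ c),
        w c * (Udy (N c / (X / 2 ^ (j + 1))) : ℂ)‖ + ∑ m ∈ (nb D).filter P,
          ‖∑ c ∈ (nb X).filter (fun c => P c ∧ m ∣ c), w c * (Udy (N c / X) : ℂ)‖ := by
        rw [sum_range_succ']
        simp
    _ ≤ J * ((2 * C1 + 64 * Ct) * (X ^ (1 / 10000 : ℝ) * X ^ (2 / 3 + 1 / 2000 : ℝ))) +
        (K * (C1 * X ^ (1 / 10000 : ℝ) * (X * D) ^ (1 / 2 : ℝ) * Δ ^ (-(9 / 10) : ℝ) +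
        C1 * X ^ (1 / 10000 : ℝ) * X ^ (1 / 2 : ℝ) * Δ ^ (-(19 / 10) : ℝ)) +
        2 * Ct * X ^ (1 / 10000 : ℝ) * (8 * Δ * X + 32 * √X)) := by
        refine add_le_add ?_ htop
        refine (sum_le_sum hlow).trans ?_
        rw [sum_const, card_range, nsmul_eq_mul]
    _ ≤ (20001 * (2 * C1 + 64 * Ct)) * X ^ (5 / 6 - 1 / 1000 : ℝ) +
        (K * (C1 * (2 * X ^ (5 / 6 - 1 / 1000 : ℝ)) + C1 * (4 * X ^ (5 / 6 - 1 / 1000 : ℝ))) +
          2 * Ct * (36 * X ^ (5 / 6 - 1 / 1000 : ℝ))) := by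
        have mono : ∀ a : ℝ, a ≤ 5 / 6 - 1 / 1000 → X ^ a ≤ X ^ (5 / 6 - 1 / 1000 : ℝ) :=
          fun a ha => Real.rpow_le_rpow_of_exponent_le hX ha
        have t0 : (J : ℝ) * ((2 * C1 + 64 * Ct) * (X ^ (1 / 10000 : ℝ) * X ^ (2 / 3 + 1 / 2000 : ℝ)))
            ≤ (20001 * (2 * C1 + 64 * Ct)) * X ^ (5 / 6 - 1 / 1000 : ℝ) := by
          calc (J : ℝ) * ((2 * C1 + 64 * Ct) * (X ^ (1 / 10000 : ℝ) * X ^ (2 / 3 + 1 / 2000 : ℝ)))
              ≤ (20001 * X ^ (1 / 10000 : ℝ)) *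
                ((2 * C1 + 64 * Ct) * (X ^ (1 / 10000 : ℝ) * X ^ (2 / 3 + 1 / 2000 : ℝ))) := by
                gcongr
            _ = (20001 * (2 * C1 + 64 * Ct)) *
                X ^ (1 / 10000 + 1 / 10000 + (2 / 3 + 1 / 2000) : ℝ) := by
                rw [← pow3 hX0]
                ring
            _ ≤ _ := mul_le_mul_of_nonneg_left (mono _ (by norm_num)) (by positivity)
        have t1 : X ^ (1 / 10000 : ℝ) * (X * D) ^ (1 / 2 : ℝ) * Δ ^ (-(9 / 10) : ℝ) ≤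
            2 * X ^ (5 / 6 - 1 / 1000 : ℝ) := by
          have e1 : Δ ^ (-(9 / 10) : ℝ) = X ^ ((9 / 10) * (1 / 6 + 3 / 1000) : ℝ) * 2 ^ (9 / 10 : ℝ) := by
            rw [hΔdef, Real.div_rpow (by positivity) (by norm_num), ← Real.rpow_mul hX0.le,
              Real.rpow_neg (by norm_num : (0 : ℝ) ≤ 2), div_inv_eq_mul]
            norm_num
          have e2 : (X * D) ^ (1 / 2 : ℝ) = X ^ (2 / 3 + 1 / 2000 : ℝ) := by
            rw [hDdef]
            nth_rewrite 1 [← Real.rpow_one X]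
            rw [← Real.rpow_add hX0, ← Real.rpow_mul hX0.le]
            norm_num
          have e3 : (2 : ℝ) ^ (9 / 10 : ℝ) ≤ 2 := by
            calc (2 : ℝ) ^ (9 / 10 : ℝ) ≤ 2 ^ (1 : ℝ) :=
                  Real.rpow_le_rpow_of_exponent_le (by norm_num) (by norm_num)
              _ = 2 := by norm_num
          rw [e1, e2]
          calc X ^ (1 / 10000 : ℝ) * X ^ (2 / 3 + 1 / 2000 : ℝ) *
                (X ^ ((9 / 10) * (1 / 6 + 3 / 1000) : ℝ) * 2 ^ (9 / 10 : ℝ))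
              ≤ X ^ (1 / 10000 : ℝ) * X ^ (2 / 3 + 1 / 2000 : ℝ) *
                (X ^ ((9 / 10) * (1 / 6 + 3 / 1000) : ℝ) * 2) := by gcongr
            _ = 2 * X ^ (1 / 10000 + (2 / 3 + 1 / 2000) + (9 / 10) * (1 / 6 + 3 / 1000) : ℝ) := by
                rw [← pow3 hX0]
                ring
            _ ≤ _ := mul_le_mul_of_nonneg_left (mono _ (by norm_num)) (by positivity)
        have t2 : X ^ (1 / 10000 : ℝ) * X ^ (1 / 2 : ℝ) * Δ ^ (-(19 / 10) : ℝ) ≤
            4 * X ^ (5 / 6 - 1 / 1000 : ℝ) := by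
          have e1 : Δ ^ (-(19 / 10) : ℝ) = X ^ ((19 / 10) * (1 / 6 + 3 / 1000) : ℝ) * 2 ^ (19 / 10 : ℝ) := by
            rw [hΔdef, Real.div_rpow (by positivity) (by norm_num), ← Real.rpow_mul hX0.le,
              Real.rpow_neg (by norm_num : (0 : ℝ) ≤ 2), div_inv_eq_mul]
            norm_num
          have e3 : (2 : ℝ) ^ (19 / 10 : ℝ) ≤ 4 := by
            calc (2 : ℝ) ^ (19 / 10 : ℝ) ≤ 2 ^ (2 : ℝ) :=
                  Real.rpow_le_rpow_of_exponent_le (by norm_num) (by norm_num)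
              _ = 4 := by norm_num
          rw [e1]
          calc X ^ (1 / 10000 : ℝ) * X ^ (1 / 2 : ℝ) *
                (X ^ ((19 / 10) * (1 / 6 + 3 / 1000) : ℝ) * 2 ^ (19 / 10 : ℝ))
              ≤ X ^ (1 / 10000 : ℝ) * X ^ (1 / 2 : ℝ) *
                (X ^ ((19 / 10) * (1 / 6 + 3 / 1000) : ℝ) * 4) := by gcongr
            _ = 4 * X ^ (1 / 10000 + 1 / 2 + (19 / 10) * (1 / 6 + 3 / 1000) : ℝ) := by
                rw [← pow3 hX0]
                ring
            _ ≤ _ := mul_le_mul_of_nonneg_left (mono _ (by norm_num)) (by positivity)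
        have t3 : X ^ (1 / 10000 : ℝ) * (8 * Δ * X + 32 * √X) ≤ 36 * X ^ (5 / 6 - 1 / 1000 : ℝ) := by
          have e1 : X ^ (1 / 10000 : ℝ) * (Δ * X) ≤ X ^ (5 / 6 - 1 / 1000 : ℝ) / 2 := by
            have : X ^ (1 / 10000 : ℝ) * (Δ * X) =
                X ^ (1 / 10000 + -(1 / 6 + 3 / 1000) + 1 : ℝ) / 2 := by
              rw [Real.rpow_add hX0, Real.rpow_add hX0, Real.rpow_one, hΔdef]
              ring
            rw [this]
            have := mono (1 / 10000 + -(1 / 6 + 3 / 1000) + 1) (by norm_num)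
            linarith
          have e2 : X ^ (1 / 10000 : ℝ) * √X ≤ X ^ (5 / 6 - 1 / 1000 : ℝ) := by
            rw [Real.sqrt_eq_rpow, ← Real.rpow_add hX0]
            exact mono _ (by norm_num)
          nlinarith
        have t1' := mul_le_mul_of_nonneg_left t1 hC1
        have t2' := mul_le_mul_of_nonneg_left t2 hC1
        have t3' := mul_le_mul_of_nonneg_left t3 (show 0 ≤ 2 * Ct by positivity)
        refine add_le_add t0 (add_le_add (mul_le_mul_of_nonneg_left (add_le_add ?_ ?_) hK) ?_)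
        · linarith
        · linarith
        · linarith
    _ = _ := by ring

end

end Vale.Agent.P006.H611
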